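import Vale.Agent.P128.Connected.Potential.Kernel
import Vale.Agent.P128.Islands.Core

/-!
# The dipole of the end points of a curve in the singular set pairs to zero with the field
-/

namespace Vale.Agent.P128.Connected.Potential

open MeasureTheory Filter Metric Set Islands
open scoped Topology ENNReal NNReal ContDiff

variable {γ : ℝ → ℂ} {C : ℝ≥0}

/-- The logarithmic integral along the curve. -/
noncomputable def logInt (γ : ℝ → ℂ) (z : ℂ) : ℂ :=
  ∫ t in Ioc (0 : ℝ) 1, deriv γ t / (γ t - z)

/-- The angle under which the curve is seen. -/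
noncomputable def angle (γ : ℝ → ℂ) (z : ℂ) : ℝ := (logInt γ z).im

lemma exists_dist_le (hγ : LipschitzWith C γ) {z : ℂ} (hz : z ∉ γ '' Icc 0 1) :
    ∃ d > 0, ∀ t ∈ Icc (0 : ℝ) 1, ∀ w ∈ ball z d, d ≤ ‖γ t - w‖ := by
  obtain ⟨d, hd, hsub⟩ := Metric.isOpen_iff.1
    (isCompact_Icc.image hγ.continuous).isClosed.isOpen_compl z hz
  refine ⟨d / 2, half_pos hd, fun t ht w hw => ?_⟩
  have h1 : d ≤ dist (γ t) z := not_lt.1 fun h => hsub h (mem_image_of_mem γ ht)
  have := dist_triangle (γ t) w z
  rw [mem_ball] at hw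
  rw [← dist_eq_norm]
  linarith

lemma measurable_log_integrand (γ : ℝ → ℂ) (hγ : Continuous γ) (z : ℂ) (n : ℕ) :
    Measurable fun t => deriv γ t / (γ t - z) ^ n :=
  (measurable_deriv γ).div ((hγ.measurable.sub_const z).pow_const n)

/-- The fundamental theorem of calculus along the curve. -/
lemma integral_log_deriv (hγ : LipschitzWith C γ) {z : ℂ} (hz : z ∉ γ '' Icc 0 1) :
    ∫ t in Ioc (0 : ℝ) 1, deriv γ t / (γ t - z) ^ 2 = (γ 0 - z)⁻¹ - (γ 1 - z)⁻¹ := by
  obtain ⟨d, hd, hle⟩ := exists_dist_le hγ hz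
  have hne : ∀ t ∈ Icc (0 : ℝ) 1, γ t - z ≠ 0 := fun t ht =>
    norm_pos_iff.1 (hd.trans_le (hle t ht z (mem_ball_self hd)))
  set φ : ℝ → ℂ := fun t => -(γ t - z)⁻¹ with hφ
  have hI : IntegrableOn (fun t => deriv γ t / (γ t - z) ^ 2) (Ioc 0 1) := by
    refine (integrableOn_const (C := (C : ℝ) / d ^ 2) (by simp)).mono'
      (measurable_log_integrand γ hγ.continuous z 2).aestronglyMeasurable
      ((ae_restrict_iff' measurableSet_Ioc).2 (Eventually.of_forall fun t ht => ?_))
    rw [norm_div, norm_pow]
    exact div_le_div₀ C.2 (norm_deriv_le_of_lipschitz hγ) (pow_pos hd 2)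
      (pow_le_pow_left₀ hd.le (hle t (Ioc_subset_Icc_self ht) z (mem_ball_self hd)) 2)
  have hlip : LipschitzOnWith (C * (d ^ 2).toNNReal⁻¹) φ (Icc 0 1) := by
    refine LipschitzOnWith.of_dist_le_mul fun a ha b hb => ?_
    have ea := hne a ha
    have eb := hne b hb
    rw [dist_eq_norm, NNReal.coe_mul, NNReal.coe_inv, Real.coe_toNNReal _ (sq_nonneg d)]
    have e : φ a - φ b = (γ a - γ b) / ((γ a - z) * (γ b - z)) := by
      simp only [hφ]; field_simp; ring
    rw [e, norm_div, norm_mul, ← dist_eq_norm (γ a)]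
    refine (div_le_div₀ (by positivity) (hγ.dist_le_mul a b) (pow_pos hd 2) ?_).trans
      (le_of_eq (by ring))
    rw [pow_two]
    exact mul_le_mul (hle a ha z (mem_ball_self hd)) (hle b hb z (mem_ball_self hd)) hd.le
      (norm_nonneg _)
  have key : ∀ L : ℂ →L[ℝ] ℝ, L (∫ t in Ioc (0 : ℝ) 1, deriv γ t / (γ t - z) ^ 2) =
      L ((γ 0 - z)⁻¹ - (γ 1 - z)⁻¹) := by
    intro L
    have hac : AbsolutelyContinuousOnInterval (fun t => L (φ t)) 0 1 := by
      refine LipschitzOnWith.absolutelyContinuousOnInterval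
        (K := ‖L‖₊ * (C * (d ^ 2).toNNReal⁻¹)) ?_
      rw [uIcc_of_le zero_le_one]
      exact L.lipschitz.comp_lipschitzOnWith hlip
    have h := hac.integral_deriv_eq_sub
    rw [intervalIntegral.integral_of_le zero_le_one] at h
    rw [← L.integral_comp_comm hI]
    refine Eq.trans (setIntegral_congr_ae measurableSet_Ioc ?_) (h.trans ?_)
    · filter_upwards [hγ.ae_differentiableAt_real] with t ht htI
      have hd1 := (ht.hasDerivAt.sub_const z).fun_inv (hne t (Ioc_subset_Icc_self htI))
      have hd2 := L.hasFDerivAt.comp_hasDerivAt t hd1.neg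
      refine Eq.symm ?_
      rw [show (fun s => L (φ s)) = L ∘ (-fun s => (γ s - z)⁻¹) from rfl, hd2.deriv]
      congr 1
      ring
    · simp only [hφ]
      rw [← map_sub]
      congr 1
      ring
  exact Complex.ext (key Complex.reCLM) (key Complex.imCLM)

lemma hasDerivAt_logInt (hγ : LipschitzWith C γ) {z : ℂ} (hz : z ∉ γ '' Icc 0 1) :
    HasDerivAt (logInt γ) ((γ 0 - z)⁻¹ - (γ 1 - z)⁻¹) z := by
  obtain ⟨d, hd, hle⟩ := exists_dist_le hγ hz
  have hm : ∀ w, Measurable fun t => deriv γ t / (γ t - w) := fun w => by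
    simpa using measurable_log_integrand γ hγ.continuous w 1
  have hb : ∀ t ∈ Ioc (0 : ℝ) 1, ∀ w ∈ ball z d, ∀ n : ℕ,
      ‖deriv γ t / (γ t - w) ^ n‖ ≤ (C : ℝ) / d ^ n := fun t ht w hw n => by
    rw [norm_div, norm_pow]
    exact div_le_div₀ C.2 (norm_deriv_le_of_lipschitz hγ) (pow_pos hd n)
      (pow_le_pow_left₀ hd.le (hle t (Ioc_subset_Icc_self ht) w hw) n)
  have h := hasDerivAt_integral_of_dominated_loc_of_deriv_le (𝕜 := ℂ)
    (μ := (volume : Measure ℝ).restrict (Ioc 0 1))
    (F := fun w t => deriv γ t / (γ t - w)) (F' := fun w t => deriv γ t / (γ t - w) ^ 2)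
    (bound := fun _ => (C : ℝ) / d ^ 2) (ball_mem_nhds z hd)
    (Eventually.of_forall fun w => (hm w).aestronglyMeasurable)
    ((integrableOn_const (C := (C : ℝ) / d ^ 1) (by simp)).mono' (hm z).aestronglyMeasurable
      ((ae_restrict_iff' measurableSet_Ioc).2 (Eventually.of_forall fun t ht => by
        simpa using hb t ht z (mem_ball_self hd) 1)))
    (measurable_log_integrand γ hγ.continuous z 2).aestronglyMeasurable
    ((ae_restrict_iff' measurableSet_Ioc).2 (Eventually.of_forall fun t ht w hw =>
      hb t ht w hw 2))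
    (integrableOn_const (by simp))
    ((ae_restrict_iff' measurableSet_Ioc).2 (Eventually.of_forall fun t ht w hw => by
      have hne : γ t - w ≠ 0 :=
        norm_pos_iff.1 (hd.trans_le (hle t (Ioc_subset_Icc_self ht) w hw))
      have h1 := (((hasDerivAt_id w).const_sub (γ t)).fun_inv hne).const_mul (deriv γ t)
      simp only [id, ← div_eq_mul_inv] at h1
      exact h1.congr_deriv (by ring)))
  rw [← integral_log_deriv hγ hz]
  exact h.2

lemma grad_angle (hγ : LipschitzWith C γ) {z : ℂ} (hz : z ∉ γ '' Icc 0 1) :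
    grad (angle γ) z = Complex.I * (kern (γ 1) z - kern (γ 0) z) := by
  have h := (Complex.imCLM.hasFDerivAt.comp z
    (((hasDerivAt_logInt hγ hz).hasFDerivAt).restrictScalars ℝ)).fderiv
  have e : angle γ = Complex.imCLM ∘ logInt γ := rfl
  rw [e, grad, h]
  rw [kern_eq, kern_eq, ← map_sub, ← neg_sub z (γ 0), ← neg_sub z (γ 1), inv_neg, inv_neg]
  generalize (z - γ 0)⁻¹ = a
  generalize (z - γ 1)⁻¹ = b
  apply Complex.ext <;> simp
  ring

lemma contDiffOn_angle (hγ : LipschitzWith C γ) :
    ContDiffOn ℝ ∞ (angle γ) (γ '' Icc 0 1)ᶜ := by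
  have hd : DifferentiableOn ℂ (logInt γ) (γ '' Icc 0 1)ᶜ := fun z hz =>
    (hasDerivAt_logInt hγ hz).differentiableAt.differentiableWithinAt
  exact Complex.imCLM.contDiff.comp_contDiffOn
    ((hd.contDiffOn (isCompact_Icc.image hγ.continuous).isClosed.isOpen_compl).restrict_scalars ℝ)

lemma abs_angle_le {r : ℝ} (hγ : LipschitzWith C γ) (hr : ∀ t ∈ Icc (0 : ℝ) 1, ‖γ t‖ ≤ r)
    {z : ℂ} (hz : r < ‖z‖) : |angle γ z| ≤ (C : ℝ) / (‖z‖ - r) := by
  refine (Complex.abs_im_le_norm _).trans ?_
  refine (norm_setIntegral_le_of_norm_le_const (C := (C : ℝ) / (‖z‖ - r)) (by simp)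
    fun t ht => ?_).trans (by simp)
  rw [norm_div]
  refine div_le_div₀ C.2 (norm_deriv_le_of_lipschitz hγ) (by linarith) ?_
  have := norm_sub_norm_le z (γ t)
  rw [norm_sub_rev]
  linarith [hr t (Ioc_subset_Icc_self ht)]

lemma abs_trunc_le_abs (M : ℕ) (t : ℝ) : |trunc M t| ≤ |t| := by
  have h := lipschitzWith_of_nnnorm_deriv_le (C := 1)
    (fun s => (hasDerivAt_trunc M s).differentiableAt) (fun s => by
      rw [← NNReal.coe_le_coe, coe_nnnorm, Real.norm_eq_abs]
      exact abs_deriv_trunc_le M s)
  simpa [Real.dist_eq, trunc] using h.dist_le_mul t 0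

/-- The reference cut-off. -/
noncomputable def base : ContDiffBump (0 : ℂ) := ⟨1, 2, one_pos, one_lt_two⟩

lemma grad_base_eq_zero {w : ℂ} (h : ‖w‖ < 1 ∨ 2 < ‖w‖) : grad base w = 0 := by
  have hc : ∀ c : ℝ, (base : ℂ → ℝ) =ᶠ[𝓝 w] (fun _ => c) → grad base w = 0 := fun c hc => by
    rw [grad_congr hc]
    simp [grad, Complex.ext_iff]
  rcases h with h | h
  · refine hc 1 (eventually_of_mem (isOpen_ball.mem_nhds (mem_ball_zero_iff.2 h)) fun y hy => ?_)
    exact base.one_of_mem_closedBall (ball_subset_closedBall hy)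
  · refine hc 0 (eventually_of_mem
      ((isClosed_closedBall (x := (0 : ℂ)) (ε := 2)).isOpen_compl.mem_nhds
      (by simpa using h)) fun y hy => ?_)
    exact base.zero_of_le_dist (le_of_lt (not_le.1 hy))

/-- The cut-off away from the ends and from infinity, at scale `N`. -/
noncomputable def eta (x y : ℂ) (N : ℝ) (z : ℂ) : ℝ :=
  base (sinv 0 N z) * ((1 - base (sinv x N⁻¹ z)) * (1 - base (sinv y N⁻¹ z)))

lemma norm_sinv (a : ℂ) {l : ℝ} (hl : 0 < l) (z : ℂ) : ‖sinv a l z‖ = ‖z - a‖ / l := by
  rw [sinv, norm_smul, norm_inv, Real.norm_of_nonneg hl.le, inv_mul_eq_div]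

lemma abs_eta_le (x y : ℂ) (N : ℝ) (z : ℂ) : |eta x y N z| ≤ 1 := by
  have h : ∀ w, (0 : ℝ) ≤ base w ∧ base w ≤ 1 := fun w => ⟨base.nonneg, base.le_one⟩
  have h1 := h (sinv 0 N z)
  have h2 := h (sinv x N⁻¹ z)
  have h3 := h (sinv y N⁻¹ z)
  rw [eta, abs_mul, abs_mul, abs_of_nonneg h1.1, abs_of_nonneg (by linarith : (0:ℝ) ≤ 1 - base _),
    abs_of_nonneg (by linarith : (0:ℝ) ≤ 1 - base (sinv y N⁻¹ z))]
  exact mul_le_one₀ h1.2 (by nlinarith) (mul_le_one₀ (by linarith) (by linarith) (by linarith))

lemma contDiff_eta (x y : ℂ) (N : ℝ) : ContDiff ℝ ∞ (eta x y N) := by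
  have h : ∀ a l, ContDiff ℝ ∞ fun z => base (sinv a l z) := fun a l =>
    base.contDiff.comp (contDiff_sinv a l)
  exact (h 0 N).mul ((contDiff_const.sub (h x _)).mul (contDiff_const.sub (h y _)))

lemma eta_eq_zero_far {x y z : ℂ} {N : ℝ} (hN : 0 < N) (hz : 2 * N ≤ ‖z‖) : eta x y N z = 0 := by
  rw [eta, base.zero_of_le_dist (by
    rw [dist_zero_right, norm_sinv _ hN, sub_zero, le_div_iff₀ hN]; exact hz), zero_mul]

lemma eta_eq_zero_near {x y z : ℂ} {N : ℝ} (hN : 0 < N) (hz : ‖z - x‖ < N⁻¹ ∨ ‖z - y‖ < N⁻¹) :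
    eta x y N z = 0 := by
  have h : ∀ a, ‖z - a‖ < N⁻¹ → base (sinv a N⁻¹ z) = 1 := fun a ha =>
    base.one_of_mem_closedBall (by
      rw [mem_closedBall_zero_iff, norm_sinv _ (inv_pos.2 hN)]
      exact ((div_lt_one (inv_pos.2 hN)).2 ha).le)
  rcases hz with h1 | h1 <;> simp [eta, h _ h1]

lemma norm_grad_eta_le {L : ℝ} (hL : ∀ w, ‖grad base w‖ ≤ L) {N : ℝ} (hN : 0 < N) (x y z : ℂ) :
    ‖grad (eta x y N) z‖ ≤ N⁻¹ * L * (ball (0 : ℂ) (3 * N) \ ball 0 N).indicator 1 z +
      N * L * (ball x (3 / N)).indicator 1 z + N * L * (ball y (3 / N)).indicator 1 z := by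
  have hL0 : 0 ≤ L := (norm_nonneg _).trans (hL 0)
  have hd : ∀ a l, DifferentiableAt ℝ (fun z => base (sinv a l z)) z := fun a l =>
    ((base.contDiff (n := 1)).comp ((contDiff_sinv a l).of_le
      (by exact_mod_cast le_top))).differentiable one_ne_zero z
  have hsub : ∀ a l, grad (fun z => 1 - base (sinv a l z)) z =
      -grad (fun z => base (sinv a l z)) z := fun a l => by
    simp [grad, fderiv_const_sub, Complex.ext_iff]
  have hg : ∀ a (l : ℝ) (S : Set ℂ), 0 < l → (∀ w, l ≤ ‖w - a‖ → ‖w - a‖ ≤ 2 * l → w ∈ S) →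
      ‖grad (fun z => base (sinv a l z)) z‖ ≤ l⁻¹ * L * S.indicator 1 z := by
    intro a l S hl hS
    rw [grad_comp_sinv base a hl.ne', push, norm_smul, norm_inv, Real.norm_of_nonneg hl.le]
    by_cases hz : l ≤ ‖z - a‖ ∧ ‖z - a‖ ≤ 2 * l
    · rw [indicator_of_mem (hS z hz.1 hz.2), Pi.one_apply, mul_one]
      exact mul_le_mul_of_nonneg_left (hL _) (inv_nonneg.2 hl.le)
    · rw [grad_base_eq_zero, norm_zero, mul_zero]
      · exact mul_nonneg (by positivity) (indicator_nonneg (fun _ _ => zero_le_one) _)
      · rw [norm_sinv _ hl, div_lt_one hl, lt_div_iff₀ hl]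
        rcases not_and_or.1 hz with h | h
        · exact Or.inl (not_le.1 h)
        · exact Or.inr (not_le.1 h)
  have g0 := hg 0 N (ball 0 (3 * N) \ ball 0 N) hN fun w h1 h2 => by
    simp only [sub_zero] at h1 h2
    simp only [Set.mem_sdiff, mem_ball_zero_iff]
    exact ⟨by linarith, not_lt.2 h1⟩
  have g : ∀ a, ‖grad (fun z => base (sinv a N⁻¹ z)) z‖ ≤ N * L * (ball a (3 / N)).indicator 1 z :=
    fun a => by
      have := hg a N⁻¹ (ball a (3 / N)) (inv_pos.2 hN) fun w _ h2 => by
        rw [mem_ball, dist_eq_norm, div_eq_mul_inv]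
        linarith [inv_pos.2 hN]
      rwa [inv_inv] at this
  have h : ∀ w, (0 : ℝ) ≤ base w ∧ base w ≤ 1 := fun w => ⟨base.nonneg, base.le_one⟩
  have e : grad (eta x y N) z =
      base (sinv 0 N z) • ((1 - base (sinv x N⁻¹ z)) • -grad (fun z => base (sinv y N⁻¹ z)) z +
        (1 - base (sinv y N⁻¹ z)) • -grad (fun z => base (sinv x N⁻¹ z)) z) +
      ((1 - base (sinv x N⁻¹ z)) * (1 - base (sinv y N⁻¹ z))) •
        grad (fun z => base (sinv 0 N z)) z := by
    unfold eta
    rw [grad_mul (hd _ _) (((hd _ _).const_sub 1).fun_mul ((hd _ _).const_sub 1)),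
      grad_mul ((hd _ _).const_sub 1) ((hd _ _).const_sub 1), hsub, hsub]
  rw [e]
  have h0 := h (sinv 0 N z)
  have h1 := h (sinv x N⁻¹ z)
  have h2 := h (sinv y N⁻¹ z)
  have n1 : ∀ (c : ℝ) (w : ℂ), 0 ≤ c → c ≤ 1 → ‖c • w‖ ≤ ‖w‖ := fun c w c0 c1 => by
    rw [norm_smul, Real.norm_of_nonneg c0]; exact mul_le_of_le_one_left (norm_nonneg _) c1
  refine (norm_add_le _ _).trans ?_
  have t1 := (n1 _ _ h0.1 h0.2).trans ((norm_add_le _ _).trans (add_le_add
    (n1 (1 - base (sinv x N⁻¹ z)) (-grad (fun z => base (sinv y N⁻¹ z)) z) (by linarith)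
      (by linarith))
    (n1 (1 - base (sinv y N⁻¹ z)) (-grad (fun z => base (sinv x N⁻¹ z)) z) (by linarith)
      (by linarith))))
  have t2 := n1 ((1 - base (sinv x N⁻¹ z)) * (1 - base (sinv y N⁻¹ z)))
    (grad (fun z => base (sinv 0 N z)) z) (by nlinarith) (by nlinarith)
  rw [norm_neg, norm_neg] at t1
  linarith [g x, g y]

/-- The field pairs to zero with the dipole of the two ends of a curve in the singular set. -/
theorem integral_dipole_eq_zero {u : ℂ → ℝ} {K : Set ℂ} (hR : Reg u K) (hD : HasDensityBound u K)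
    (hγ : LipschitzWith C γ) (hK : γ '' Icc 0 1 ⊆ K) :
    ∫ z, dot (rgrad u z) (kern (γ 0) z - kern (γ 1) z) = 0 := by
  have g := growth_rgrad hR hD
  set Mg := 3 * Real.pi / 2
  set x := γ 0
  set y := γ 1
  set k := fun z => dot (rgrad u z) (kern x z - kern y z) with hk
  have hoff : ∀ z ∉ K, z ∉ γ '' Icc 0 1 := fun z hz h => hz (hK h)
  have hdot : ∀ z ∉ K, dot (grad u z) (grad (angle γ) z) = k z := fun z hz => by
    rw [grad_angle hγ (hoff z hz), hk]
    simp [dot, rgrad, x, y]
    ring
  have hAs : ContDiffOn ℝ ∞ (angle γ) Kᶜ := (contDiffOn_angle hγ).mono fun z hz => hoff z hz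
  have hU := hR.isClosed.isOpen_compl
  have hdA : ∀ z ∉ K, DifferentiableAt ℝ (angle γ) z := fun z hz =>
    ((hAs z hz).contDiffAt (hU.mem_nhds hz)).differentiableAt (by simp)
  obtain ⟨L, hL⟩ : ∃ L, ∀ w, ‖grad base w‖ ≤ L := by
    have hc := (contDiffOn_grad isOpen_univ (base.contDiff (n := (⊤ : ℕ∞))).contDiffOn).continuousOn
    rw [continuousOn_univ] at hc
    exact (HasCompactSupport.intro (isCompact_closedBall (0 : ℂ) 2) fun w hw =>
      grad_base_eq_zero (Or.inr (by simpa using hw))).exists_bound_of_continuous hc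
  have hL0 : 0 ≤ L := (norm_nonneg _).trans (hL 0)
  obtain ⟨r, hr0, hr⟩ := (isCompact_Icc.image hγ.continuous).isBounded.exists_pos_norm_le
  set N : ℕ → ℝ := fun n => (n : ℝ) + 1 with hN
  have hN0 : ∀ n, 0 < N n := fun n => by simp only [hN]; positivity
  have hNt : Tendsto N atTop atTop :=
    tendsto_atTop_add_const_right _ _ tendsto_natCast_atTop_atTop
  -- fixed truncation
  have hm : ∀ m : ℕ, ∫ z, deriv (trunc m) (angle γ z) * k z = 0 := by
    intro m
    set T := ((m : ℝ) + 1) * (Real.pi / 2)
    have hT : 0 ≤ T := by positivity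
    set p : ℕ → ℂ → ℝ := fun n z => deriv (trunc m) (angle γ z) * (eta x y (N n) z * k z) with hp
    set q : ℕ → ℂ → ℝ := fun n z =>
      trunc m (angle γ z) * dot (grad u z) (grad (eta x y (N n)) z) with hq
    have hmeasA : AEStronglyMeasurable (angle γ) (volume : Measure ℂ) := by
      have h : AEStronglyMeasurable (angle γ) ((volume : Measure ℂ).restrict Kᶜ) :=
        hAs.continuousOn.aestronglyMeasurable hU.measurableSet
      rwa [Measure.restrict_eq_self_of_ae_mem (s := Kᶜ)
        (measure_eq_zero_iff_ae_notMem.1 hR.null)] at h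
    have hmeasT : AEStronglyMeasurable (fun z => deriv (trunc m) (angle γ z))
        (volume : Measure ℂ) :=
      ((contDiff_trunc m).continuous_deriv (by simp)).comp_aestronglyMeasurable hmeasA
    have hki : Integrable k := integrable_dot_dipole g x y
    have hpi : ∀ n, Integrable (p n) := fun n =>
      hki.norm.mono' (hmeasT.mul (((contDiff_eta x y (N n)).continuous.aestronglyMeasurable).mul
        hki.1)) (Eventually.of_forall fun z => by
          simp only [hp, norm_mul, Real.norm_eq_abs]
          exact (mul_le_of_le_one_left (by positivity) (abs_deriv_trunc_le m _)).trans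
            (mul_le_of_le_one_left (abs_nonneg _) (abs_eta_le _ _ _ _)))
    have hqi : ∀ n, Integrable (q n) := fun n => by
      have hc := (contDiffOn_grad isOpen_univ (contDiff_eta x y (N n)).contDiffOn).continuousOn
      rw [continuousOn_univ] at hc
      have hz : ∀ z, z ∉ closedBall (0 : ℂ) (2 * N n) → grad (eta x y (N n)) z = 0 :=
        fun z hz => grad_eq_zero_outside isClosed_closedBall
          (fun w hw => eta_eq_zero_far (hN0 n) (by simpa using (not_le.1 (by simpa using hw)).le))
          hz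
      have hmem : MemLp (grad (eta x y (N n))) 2 :=
        hc.memLp_of_hasCompactSupport (HasCompactSupport.intro (isCompact_closedBall _ _) hz)
      have hi := hR.integrable_dot hmem (r := 3 * N n) fun z hz' => hz z fun h =>
        hz' (closedBall_subset_ball (by linarith [hN0 n]) h)
      exact hi.bdd_mul ((contDiff_trunc m).continuous.comp_aestronglyMeasurable hmeasA)
        (c := T) (Eventually.of_forall fun z => abs_trunc_le m _)
    have hsum : ∀ n, (∫ z, p n z) + ∫ z, q n z = 0 := by
      intro n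
      set ψ := fun z => trunc m (angle γ z) * eta x y (N n) z with hψ
      have hs : ContDiffOn ℝ ∞ ψ Kᶜ :=
        ((contDiff_trunc m).comp_contDiffOn hAs).mul (contDiff_eta x y (N n)).contDiffOn
      have hcs : ∀ z, z ∉ closedBall (0 : ℂ) (2 * N n) → ψ z = 0 := fun z hz => by
        simp [hψ, eta_eq_zero_far (hN0 n) (by simpa using (not_le.1 (by simpa using hz)).le)]
      have hgrad : ∀ z ∉ K, grad ψ z = (trunc m (angle γ z)) • grad (eta x y (N n)) z +
          eta x y (N n) z • deriv (trunc m) (angle γ z) • grad (angle γ) z := fun z hz => by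
        rw [← grad_comp_real (hasDerivAt_trunc m _).differentiableAt (hdA z hz)]
        exact grad_mul ((hasDerivAt_trunc m _).differentiableAt.comp z (hdA z hz))
          ((contDiff_eta x y (N n)).differentiable (by simp) z)
      set c := T * ((N n)⁻¹ * L + N n * L + N n * L) + 2 * N n with hc
      have hmem : MemLp (grad ψ) 2 := by
        refine MemLp.of_le_mul (c := 1)
          (memLp_indicator_const 2 measurableSet_closedBall (c : ℝ)
            (Or.inr (measure_closedBall_lt_top (μ := (volume : Measure ℂ))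
              (x := (0 : ℂ)) (r := 2 * N n)).ne))
          (measurable_grad ψ).aestronglyMeasurable ?_
        filter_upwards [measure_eq_zero_iff_ae_notMem.1 hR.null] with z hz
        rw [one_mul]
        by_cases hzB : z ∈ closedBall (0 : ℂ) (2 * N n)
        · rw [indicator_of_mem hzB, hgrad z hz, Real.norm_of_nonneg (by positivity), hc]
          refine (norm_add_le _ _).trans (add_le_add ?_ ?_)
          · rw [norm_smul]
            refine mul_le_mul (abs_trunc_le m _) ?_ (norm_nonneg _) hT
            refine (norm_grad_eta_le hL (hN0 n) x y z).trans ?_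
            have h1 : ∀ S : Set ℂ, S.indicator (1 : ℂ → ℝ) z ≤ 1 := fun S =>
              indicator_apply_le' (fun _ => le_rfl) (fun _ => zero_le_one)
            have := hN0 n
            exact add_le_add (add_le_add (mul_le_of_le_one_right (by positivity) (h1 _))
              (mul_le_of_le_one_right (by positivity) (h1 _)))
              (mul_le_of_le_one_right (by positivity) (h1 _))
          · rw [norm_smul, norm_smul, Real.norm_eq_abs, Real.norm_eq_abs]
            rcases eq_or_ne (eta x y (N n) z) 0 with h0 | h0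
            · rw [h0, abs_zero, zero_mul]; linarith [hN0 n]
            refine (mul_le_of_le_one_left (by positivity) (abs_eta_le _ _ _ _)).trans
              ((mul_le_of_le_one_left (norm_nonneg _) (abs_deriv_trunc_le m _)).trans ?_)
            rw [grad_angle hγ (hoff z hz), norm_mul, Complex.norm_I, one_mul]
            refine (norm_sub_le _ _).trans ?_
            have hn := fun h => h0 (eta_eq_zero_near (hN0 n) h)
            have b1 : (N n)⁻¹ ≤ ‖z - x‖ := not_lt.1 fun h => hn (Or.inl h)
            have b2 : (N n)⁻¹ ≤ ‖z - y‖ := not_lt.1 fun h => hn (Or.inr h)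
            rw [norm_kern, norm_kern]
            have i1 := inv_anti₀ (inv_pos.2 (hN0 n)) b1
            have i2 := inv_anti₀ (inv_pos.2 (hN0 n)) b2
            rw [inv_inv] at i1 i2
            linarith
        · rw [indicator_of_notMem hzB, norm_zero,
            grad_eq_zero_outside isClosed_closedBall hcs hzB, norm_zero]
      rw [← integral_add (hpi n) (hqi n)]
      refine Eq.trans (integral_congr_ae ?_)
        (hR.euler hs (HasCompactSupport.intro (isCompact_closedBall _ _) hcs) hmem)
      filter_upwards [measure_eq_zero_iff_ae_notMem.1 hR.null] with z hz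
      rw [hgrad z hz, hp, hq]
      simp only [← hdot z hz, dot, Complex.add_re, Complex.add_im, Complex.smul_re,
        Complex.smul_im, smul_eq_mul]
      ring
    have hplim : Tendsto (fun n => ∫ z, p n z) atTop
        (𝓝 (∫ z, deriv (trunc m) (angle γ z) * k z)) := by
      refine tendsto_integral_of_dominated_convergence (fun z => ‖k z‖) (fun n => (hpi n).1)
        hki.norm (fun n => Eventually.of_forall fun z => ?_) ?_
      · simp only [hp, norm_mul, Real.norm_eq_abs]
        exact (mul_le_of_le_one_left (by positivity) (abs_deriv_trunc_le m _)).trans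
          (mul_le_of_le_one_left (abs_nonneg _) (abs_eta_le _ _ _ _))
      · filter_upwards [measure_eq_zero_iff_ae_notMem.1 hR.null] with z hz
        have hzx : z ≠ x := fun h => hoff z hz ⟨0, by simp, h.symm⟩
        have hzy : z ≠ y := fun h => hoff z hz ⟨1, by simp, h.symm⟩
        have he : ∀ᶠ n in atTop, eta x y (N n) z = 1 := by
          filter_upwards [hNt.eventually_ge_atTop ‖z‖,
            hNt.eventually_ge_atTop (2 / ‖z - x‖), hNt.eventually_ge_atTop (2 / ‖z - y‖)]
            with n h1 h2 h3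
          have hn := hN0 n
          rw [eta, base.one_of_mem_closedBall (by
              rw [mem_closedBall_zero_iff, norm_sinv _ hn, sub_zero]
              exact (div_le_one hn).2 h1),
            base.zero_of_le_dist (by
              rw [dist_zero_right, norm_sinv _ (inv_pos.2 hn), div_inv_eq_mul, mul_comm]
              exact (div_le_iff₀ (norm_pos_iff.2 (sub_ne_zero.2 hzx))).1 h2),
            base.zero_of_le_dist (by
              rw [dist_zero_right, norm_sinv _ (inv_pos.2 hn), div_inv_eq_mul, mul_comm]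
              exact (div_le_iff₀ (norm_pos_iff.2 (sub_ne_zero.2 hzy))).1 h3)]
          norm_num
        exact tendsto_const_nhds.congr' (he.mono fun n hn => by simp [hp, hn])
    have hqlim : Tendsto (fun n => ∫ z, q n z) atTop (𝓝 0) := by
      set c := (C : ℝ) * L * Mg * 6 * Real.sqrt 3 + 2 * (T * L * Mg * 3 * Real.sqrt 3) with hc
      refine squeeze_zero_norm' (a := fun n => c / Real.sqrt (N n)) ?_
        (tendsto_const_nhds.div_atTop (Real.tendsto_sqrt_atTop.comp hNt))
      filter_upwards [hNt.eventually_ge_atTop (2 * r)] with n hn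
      have hn0 := hN0 n
      set B := fun z : ℂ => 2 * (C : ℝ) / N n * ((N n)⁻¹ * L) *
          (ball (0 : ℂ) (3 * N n)).indicator (fun w => ‖rgrad u w‖) z +
        (T * (N n * L) * (ball x (3 / N n)).indicator (fun w => ‖rgrad u w‖) z +
          T * (N n * L) * (ball y (3 / N n)).indicator (fun w => ‖rgrad u w‖) z) with hB
      have iA := integrable_indicator_norm g
      have hBi : Integrable B :=
        ((iA 0 (3 * N n)).const_mul _).add (((iA x _).const_mul _).add ((iA y _).const_mul _))
      have hle : ∀ z, ‖q n z‖ ≤ B z := fun z => by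
        simp only [hq, norm_mul, Real.norm_eq_abs]
        refine (mul_le_mul_of_nonneg_left ((abs_dot_le _ _).trans
          (mul_le_mul_of_nonneg_left (norm_grad_eta_le hL hn0 x y z) (norm_nonneg _)))
          (abs_nonneg _)).trans ?_
        rw [← norm_rgrad, mul_add, mul_add, mul_add, mul_add, hB, add_assoc]
        have hTA := abs_trunc_le m (angle γ z)
        have hF := norm_nonneg (rgrad u z)
        refine add_le_add ?_ (add_le_add ?_ ?_)
        · by_cases hz : z ∈ ball (0 : ℂ) (3 * N n) \ ball 0 (N n)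
          · rw [indicator_of_mem hz, indicator_of_mem hz.1, Pi.one_apply, mul_one]
            have h1 : N n ≤ ‖z‖ := by simpa using hz.2
            have h2 := (abs_trunc_le_abs m (angle γ z)).trans (abs_angle_le hγ
              (fun t ht => hr _ (mem_image_of_mem γ ht)) (z := z) (by linarith))
            have h3 : (C : ℝ) / (‖z‖ - r) ≤ 2 * (C : ℝ) / N n := by
              rw [div_le_div_iff₀ (by linarith) hn0]
              nlinarith [C.2]
            calc |trunc m (angle γ z)| * (‖rgrad u z‖ * ((N n)⁻¹ * L))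
                ≤ 2 * (C : ℝ) / N n * (‖rgrad u z‖ * ((N n)⁻¹ * L)) :=
                  mul_le_mul_of_nonneg_right (h2.trans h3) (by positivity)
              _ = _ := by ring
          · rw [indicator_of_notMem hz, mul_zero, mul_zero, mul_zero]
            exact mul_nonneg (by positivity) (indicator_nonneg (fun w _ => norm_nonneg _) _)
        all_goals
          simp only [indicator, Pi.one_apply]
          split_ifs
          · exact (mul_le_mul_of_nonneg_right hTA (by positivity)).trans (le_of_eq (by ring))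
          · simp
      refine (norm_integral_le_of_norm_le hBi (Eventually.of_forall hle)).trans ?_
      have hi : ∀ a s, 0 ≤ s → ∫ z, (ball a s).indicator (fun w => ‖rgrad u w‖) z ≤
          Mg * (s * Real.sqrt s) := fun a s hs => by
        rw [integral_indicator measurableSet_ball]; exact g.le a s hs
      rw [hB, integral_add ((iA 0 _).const_mul _)
          (((iA x _).const_mul _).fun_add ((iA y _).const_mul _)),
        integral_add ((iA x _).const_mul _) ((iA y _).const_mul _), integral_const_mul,
        integral_const_mul, integral_const_mul]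
      refine (add_le_add (mul_le_mul_of_nonneg_left (hi 0 _ (by positivity)) (by positivity))
        (add_le_add (mul_le_mul_of_nonneg_left (hi x _ (by positivity)) (by positivity))
          (mul_le_mul_of_nonneg_left (hi y _ (by positivity)) (by positivity)))).trans
        (le_of_eq ?_)
      rw [hc, Real.sqrt_mul (by norm_num : (0 : ℝ) ≤ 3), Real.sqrt_div (by norm_num : (0 : ℝ) ≤ 3)]
      have hs : Real.sqrt (N n) * Real.sqrt (N n) = N n := Real.mul_self_sqrt hn0.le
      have hs0 : 0 < Real.sqrt (N n) := Real.sqrt_pos.2 hn0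
      generalize Real.sqrt (N n) = s at hs hs0 ⊢
      generalize N n = ν at hs ⊢
      subst hs
      generalize Mg = μ
      field_simp
      ring
    have h := hplim.add hqlim
    simp only [hsum, add_zero] at h
    exact tendsto_nhds_unique h tendsto_const_nhds
  have hki : Integrable k := integrable_dot_dipole g x y
  have hlim := tendsto_integral_of_dominated_convergence (μ := (volume : Measure ℂ))
    (F := fun m z => deriv (trunc m) (angle γ z) * k z) (f := k) (fun z => ‖k z‖)
    (fun m => by
      have h : AEStronglyMeasurable (fun z => deriv (trunc m) (angle γ z))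
          ((volume : Measure ℂ).restrict Kᶜ) :=
        (((contDiff_trunc m).continuous_deriv (by simp)).comp_continuousOn
          hAs.continuousOn).aestronglyMeasurable hU.measurableSet
      rw [Measure.restrict_eq_self_of_ae_mem (s := Kᶜ)
        (measure_eq_zero_iff_ae_notMem.1 hR.null)] at h
      exact h.mul hki.1) hki.norm
    (fun m => Eventually.of_forall fun z => by
      rw [norm_mul, Real.norm_eq_abs]
      exact mul_le_of_le_one_left (norm_nonneg _) (abs_deriv_trunc_le m _))
    (Eventually.of_forall fun z => by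
      simpa using (tendsto_deriv_trunc (angle γ z)).mul_const (k z))
  simp only [hm] at hlim
  exact tendsto_nhds_unique hlim tendsto_const_nhds

end Vale.Agent.P128.Connected.Potential
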