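import Vale.Agent.P128.Connected.Potential.Mollify
import Mathlib.Analysis.Calculus.UniformLimitsDeriv

/-!
# The conjugate potential of a minimiser
-/

namespace Vale.Agent.P128.Connected.Potential

open MeasureTheory Filter Metric Set Islands ContinuousLinearMap
open scoped Topology ENNReal NNReal ContDiff

variable {u v : ℂ → ℝ} {K : Set ℂ}

lemma measurable_grad (f : ℂ → ℝ) : Measurable (grad f) := by
  have e : grad f = fun x => Complex.equivRealProdCLM.symm
      (fderiv ℝ f x 1, fderiv ℝ f x Complex.I) := by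
    funext x
    simp [grad, Complex.ext_iff]
  rw [e]
  exact Complex.equivRealProdCLM.symm.continuous.measurable.comp
    ((measurable_fderiv_apply_const ℝ f 1).prodMk (measurable_fderiv_apply_const ℝ f Complex.I))

lemma norm_rgrad (f : ℂ → ℝ) (x : ℂ) : ‖rgrad f x‖ = ‖grad f x‖ := by simp [rgrad]

lemma dot_rgrad_rgrad (f g : ℂ → ℝ) (x : ℂ) :
    dot (rgrad f x) (rgrad g x) = dot (grad f x) (grad g x) := by
  simp [dot, rgrad]
  ring

/-- The rotated gradient of a minimiser has the growth `r ^ (3 / 2)`. -/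
theorem growth_rgrad (hR : Reg u K) (hD : HasDensityBound u K) :
    Growth (rgrad u) (3 * Real.pi / 2) := by
  have hm : Measurable (rgrad u) := measurable_const.mul (measurable_grad u)
  have hL : ∀ c r, MemLp (grad u) 2 (volume.restrict (ball c r)) := fun c r =>
    (hR.memLp (‖c‖ + r)).mono_measure (Measure.restrict_mono_set _ fun z hz => by
      rw [mem_ball_zero_iff]
      rw [mem_ball, dist_eq_norm] at hz
      linarith [norm_le_norm_add_norm_sub' z c])
  have hI : ∀ c r, IntegrableOn (rgrad u) (ball c r) := fun c r => by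
    have : IsFiniteMeasure ((volume : Measure ℂ).restrict (ball c r)) :=
      isFiniteMeasure_restrict.2 measure_ball_lt_top.ne
    exact ((hL c r).integrable one_le_two).norm.mono' hm.aestronglyMeasurable
      (Eventually.of_forall fun x => (norm_rgrad u x).le)
  refine ⟨hm, hI, fun c r hr => ?_⟩
  rcases hr.eq_or_lt with rfl | hr
  · simp
  set s := Real.sqrt r
  have hs : 0 < s := Real.sqrt_pos.2 hr
  have hss : s * s = r := Real.mul_self_sqrt hr.le
  have : IsFiniteMeasure ((volume : Measure ℂ).restrict (ball c r)) :=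
    isFiniteMeasure_restrict.2 measure_ball_lt_top.ne
  have hle : ∀ x, ‖rgrad u x‖ ≤ s / 2 * ‖grad u x‖ ^ 2 + (2 * s)⁻¹ := fun x => by
    rw [norm_rgrad]
    have h : 0 ≤ (s * ‖grad u x‖ - 1) ^ 2 / (2 * s) := by positivity
    have e : (s * ‖grad u x‖ - 1) ^ 2 / (2 * s) =
        s / 2 * ‖grad u x‖ ^ 2 + (2 * s)⁻¹ - ‖grad u x‖ := by
      field_simp
      ring
    linarith
  have i1 := (hL c r).norm.integrable_sq.const_mul (s / 2)
  refine (setIntegral_mono (hI c r).norm
    (i1.fun_add (integrable_const _)) hle).trans ?_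
  rw [integral_add i1 (integrable_const _), integral_const_mul, setIntegral_const]
  have hv : (volume : Measure ℂ).real (ball c r) = Real.pi * r ^ 2 := by
    rw [measureReal_def, Complex.volume_ball]
    simp [hr.le, mul_comm]
  rw [hv, smul_eq_mul]
  have h2 := mul_le_mul_of_nonneg_left (hD c r hr.le).2 (show 0 ≤ s / 2 by positivity)
  have e : Real.pi * r ^ 2 * (2 * s)⁻¹ = Real.pi * (r * s) / 2 := by
    field_simp
    rw [← hss]
    ring
  rw [e]
  calc _ ≤ s / 2 * (2 * Real.pi * r) + Real.pi * (r * s) / 2 := by linarith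
    _ = _ := by ring

/-- The rotated gradient of a minimiser is weakly curl free on the whole plane. -/
lemma curl_rgrad (hR : Reg u K) {φ : ℂ → ℝ} (hφ : IsTest univ φ) :
    ∫ x, dot (rgrad u x) (rgrad φ x) = 0 := by
  simp only [dot_rgrad_rgrad]
  have hc := (contDiffOn_grad isOpen_univ hφ.1.contDiffOn).continuousOn
  rw [continuousOn_univ] at hc
  exact hR.euler hφ.1.contDiffOn hφ.2.1 (hc.memLp_of_hasCompactSupport
    (HasCompactSupport.intro hφ.2.1.isCompact fun x hx => grad_eq_zero_of_notMem_tsupport hx))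

lemma continuousOn_rgrad (hR : Reg u K) : ContinuousOn (rgrad u) Kᶜ :=
  continuousOn_const.mul (contDiffOn_grad hR.isClosed.isOpen_compl hR.smooth).continuousOn

lemma eq_of_hasFDerivAt {w : ℂ → ℝ} {x F : ℂ} (h : HasFDerivAt w (innerSL ℝ F) x) :
    grad w x = F := by
  rw [grad, h.fderiv]
  apply Complex.ext <;> simp [innerSL_apply_apply, Complex.inner]

/-- There is a potential, and its increments are the averaged line integrals. -/
theorem exists_potential (hR : Reg u K) (hD : HasDensityBound u K) :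
    ∃ v : ℂ → ℝ, Continuous v ∧ ContDiffOn ℝ ∞ v Kᶜ ∧ (∀ x ∉ K, grad v x = rgrad u x) ∧
      ∀ R > (0 : ℝ), ∀ x y, v x - v y = val (rgrad u) R x y := by
  have g := growth_rgrad hR hD
  set M := 3 * Real.pi / 2
  choose w hw using exists_potential_moll g fun φ hφ => curl_rgrad hR hφ
  set v : ℂ → ℝ := fun x => val (rgrad u) 1 x 0
  have hval : ∀ n R x y, val (moll n (rgrad u)) R x y = w n x - w n y := fun n R x y =>
    val_of_gradient (continuous_moll g n) (hw n) R x y
  have hlim : ∀ x, Tendsto (fun n => w n x - w n 0) atTop (𝓝 (v x)) := fun x =>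
    (tendsto_val_moll g one_pos x 0).congr fun n => hval n 1 x 0
  have hinc : ∀ R > (0 : ℝ), ∀ x y, v x - v y = val (rgrad u) R x y := fun R hR' x y =>
    tendsto_nhds_unique (((hlim x).sub (hlim y)).congr fun n => (sub_sub_sub_cancel_right _ _ _))
      ((tendsto_val_moll g hR' x y).congr fun n => hval n R x y)
  have hder : ∀ x ∉ K, HasFDerivAt v (innerSL ℝ (rgrad u x)) x := by
    intro x hx
    let L : ℂ →L[ℝ] (ℂ →L[ℝ] ℝ) := innerSL ℝ
    have hc : ContinuousAt (rgrad u) x :=
      (continuousOn_rgrad hR).continuousAt (hR.isClosed.isOpen_compl.mem_nhds hx)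
    refine hasFDerivAt_of_tendstoUniformlyOnFilter (l := atTop)
      (f' := fun n y => L (moll n (rgrad u) y)) (g' := fun y => L (rgrad u y))
      (f := fun n y => w n y - w n 0) ?_
      (Eventually.of_forall fun p => (hw p.1 p.2).sub_const _)
      (Eventually.of_forall hlim)
    rw [Metric.tendstoUniformlyOnFilter_iff]
    intro ε hε
    have h1 : Tendsto (fun p : ℕ × ℂ => moll p.1 (rgrad u) p.2) (atTop ×ˢ 𝓝 x)
        (𝓝 (rgrad u x)) :=
      ContDiffBump.convolution_tendsto_right (g := fun _ => rgrad u) (k := Prod.snd)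
        (φ := fun p : ℕ × ℂ => bump p.1) (tendsto_bump.comp tendsto_fst)
        (Eventually.of_forall fun _ => g.meas.aestronglyMeasurable)
        (hc.tendsto.comp tendsto_snd) tendsto_snd
    have h2 := ((L.continuous.tendsto _).comp h1)
    have h3 := (((L.continuous.tendsto _).comp hc.tendsto)).comp
      (tendsto_snd : Tendsto Prod.snd ((atTop : Filter ℕ) ×ˢ 𝓝 x) (𝓝 x))
    have := h3.dist h2
    rw [dist_self] at this
    exact (Metric.tendsto_nhds.1 this ε hε).mono fun p hp => by
      simpa [Real.dist_eq, abs_of_nonneg dist_nonneg] using hp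
  refine ⟨v, ?_, ?_, fun x hx => eq_of_hasFDerivAt (hder x hx), hinc⟩
  · refine continuous_iff_continuousAt.2 fun x => ?_
    rw [ContinuousAt, tendsto_iff_dist_tendsto_zero]
    refine squeeze_zero (fun y => dist_nonneg)
      (g := fun y => 5 * M * Real.sqrt ‖y - x‖ / ∫ z, bell z) (fun y => ?_) ?_
    · rcases eq_or_ne y x with rfl | hne
      · simp
      · have hp : 0 < ‖y - x‖ := norm_pos_iff.2 (sub_ne_zero.2 hne)
        rw [Real.dist_eq, hinc _ hp y x]
        refine (abs_val_le g hp y x).trans (le_of_eq ?_)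
        rw [show ‖y - x‖ * M / Real.sqrt ‖y - x‖ = M * (‖y - x‖ / Real.sqrt ‖y - x‖) by ring,
          Real.div_sqrt]
        ring
    · have hc : Continuous fun y : ℂ => 5 * M * Real.sqrt ‖y - x‖ / ∫ z, bell z := by fun_prop
      simpa using hc.tendsto x
  · have hU := hR.isClosed.isOpen_compl
    refine (contDiffOn_infty_iff_fderiv_of_isOpen hU).2
      ⟨fun x hx => (hder x hx).differentiableAt.differentiableWithinAt, ?_⟩
    have hs : ContDiffOn ℝ ∞ (fun x => innerSL ℝ (rgrad u x)) Kᶜ :=
      (innerSL ℝ (E := ℂ) : ℂ →L[ℝ] (ℂ →L[ℝ] ℝ)).contDiff.comp_contDiffOn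
        (contDiffOn_const.mul (contDiffOn_grad hU hR.smooth))
    exact hs.congr fun x hx => (hder x hx).fderiv

/-- A continuous function without gradient off a closed set of locally finite length is
constant. -/
theorem eq_of_grad_eq_zero {w : ℂ → ℝ} (hK : IsClosed K)
    (hfin : ∀ r, Measure.hausdorffMeasure 1 (K ∩ ball 0 r) ≠ ⊤) (hw : Continuous w)
    (hd : ∀ x ∉ K, HasFDerivAt w (0 : ℂ →L[ℝ] ℝ) x) (p q : ℂ) : w p = w q := by
  by_contra hne
  set e := q - p with he
  have he0 : e ≠ 0 := fun h => hne (by rw [sub_eq_zero.1 h])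
  have hnp : 0 < ‖e‖ := norm_pos_iff.2 he0
  set d := Complex.I * e with hd'
  -- all values away from a countable set are taken only on `K`
  have hloc : ∀ x ∉ K, ∀ᶠ y in 𝓝 x, w y = w x := by
    intro x hx
    obtain ⟨r, hr, hsub⟩ := Metric.isOpen_iff.1 hK.isOpen_compl x hx
    filter_upwards [ball_mem_nhds x hr] with y hy
    exact ((convex_ball x r).is_const_of_fderivWithin_eq_zero (𝕜 := ℝ)
      (fun z hz => (hd z (hsub hz)).differentiableAt.differentiableWithinAt)
      (fun z hz => by rw [fderivWithin_of_isOpen isOpen_ball hz, (hd z (hsub hz)).fderiv])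
      (mem_ball_self hr) hy).symm
  obtain ⟨D, hDc, hDd⟩ := TopologicalSpace.exists_countable_dense ℂ
  have hcount : (w '' Kᶜ).Countable := by
    refine (hDc.image w).mono ?_
    rintro _ ⟨x, hx, rfl⟩
    obtain ⟨y, hy, hyD⟩ := mem_closure_iff_nhds.1 (hDd x) _ (hloc x hx)
    exact ⟨y, hyD, hy⟩
  -- parallel segments near `[p, q]`
  set line : ℝ → ℝ → ℂ := fun s t => p + s • d + t • e with hline
  set π : ℂ → ℝ := fun z => dot (z - p) d / ‖e‖ ^ 2 with hπ
  have hπline : ∀ s t, π (line s t) = s := by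
    intro s t
    simp only [hπ, hline, norm_sq_eq_dot, dot, hd']
    have : e.re * e.re + e.im * e.im ≠ 0 := by
      have := norm_sq_eq_dot e ▸ pow_ne_zero 2 hnp.ne'
      simpa [dot] using this
    rw [div_eq_iff this]
    simp
    ring
  have hπl : LipschitzWith (‖e‖₊⁻¹) π := by
    refine LipschitzWith.of_dist_le_mul fun a b => ?_
    have e1 : π a - π b = dot (a - b) d / ‖e‖ ^ 2 := by
      simp [hπ, dot]; ring
    rw [Real.dist_eq, e1, abs_div, abs_of_pos (pow_pos hnp 2), dist_eq_norm, NNReal.coe_inv,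
      coe_nnnorm, div_le_iff₀ (pow_pos hnp 2)]
    calc |dot (a - b) d| ≤ ‖a - b‖ * ‖d‖ := abs_dot_le _ _
      _ = ‖e‖⁻¹ * ‖a - b‖ * ‖e‖ ^ 2 := by
        rw [hd', norm_mul, Complex.norm_I, one_mul]
        field_simp
  set a := min (w p) (w q)
  set b := max (w p) (w q)
  have hab : a < b := min_lt_max.2 hne
  obtain ⟨δ, hδ, hδb⟩ : ∃ δ > (0 : ℝ), ∀ s, |s| ≤ δ →
      |w (line s 0) - w p| ≤ (b - a) / 4 ∧ |w (line s 1) - w q| ≤ (b - a) / 4 := by
    have h4 : 0 < (b - a) / 4 := by linarith
    have c1 : Tendsto (fun s => w (line s 0)) (𝓝 0) (𝓝 (w p)) := by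
      have hc : Continuous fun s => w (line s 0) := hw.comp (by simp only [hline]; fun_prop)
      simpa [hline] using hc.tendsto 0
    have c2 : Tendsto (fun s => w (line s 1)) (𝓝 0) (𝓝 (w q)) := by
      have hc : Continuous fun s => w (line s 1) := hw.comp (by simp only [hline]; fun_prop)
      simpa [hline, he] using hc.tendsto 0
    obtain ⟨δ, hδ, hb⟩ := Metric.eventually_nhds_iff.1
      (((Metric.tendsto_nhds.1 c1) _ h4).and ((Metric.tendsto_nhds.1 c2) _ h4))
    refine ⟨δ / 2, half_pos hδ, fun s hs => ?_⟩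
    obtain ⟨h1, h2⟩ := hb (show dist s 0 < δ by rw [Real.dist_eq, sub_zero]; linarith)
    exact ⟨(Real.dist_eq _ _ ▸ h1).le, (Real.dist_eq _ _ ▸ h2).le⟩
  set B := (fun st : ℝ × ℝ => line st.1 st.2) '' (Icc (-δ) δ ×ˢ Icc (0 : ℝ) 1) with hB
  have hBc : IsCompact B :=
    (isCompact_Icc.prod isCompact_Icc).image (by simp only [hline]; fun_prop)
  set J := Ioo (a + (b - a) / 4) (b - (b - a) / 4) \ w '' Kᶜ with hJ
  have hJinf : J.Infinite := by
    intro hf
    have h1 : (Ioo (a + (b - a) / 4) (b - (b - a) / 4)).Countable :=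
      (hf.countable.union hcount).mono fun c hc => by
        by_cases h : c ∈ w '' Kᶜ
        · exact Or.inr h
        · exact Or.inl ⟨hc, h⟩
    exact absurd (h1.measure_zero volume) (by
      rw [Real.volume_Ioo]; simp; linarith)
  obtain ⟨r, hr⟩ := hBc.isBounded.subset_ball (0 : ℂ)
  set A : J → Set ℂ := fun c => B ∩ w ⁻¹' {(c : ℝ)} with hA
  have hlow : ∀ c : J, ENNReal.ofReal (‖e‖ * (2 * δ)) ≤ Measure.hausdorffMeasure 1 (A c) := by
    intro c
    have hsub : Icc (-δ) δ ⊆ π '' A c := by
      intro s hs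
      have hc := hδb s (abs_le.2 hs)
      rw [abs_le, abs_le] at hc
      have hcI : ((c : ℝ)) ∈ uIcc (w (line s 0)) (w (line s 1)) := by
        have hc1 := c.2.1.1
        have hc2 := c.2.1.2
        rcases le_total (w p) (w q) with h | h
        · simp only [a, b, min_eq_left h, max_eq_right h] at hc hc1 hc2
          exact Icc_subset_uIcc ⟨by linarith, by linarith⟩
        · simp only [a, b, min_eq_right h, max_eq_left h] at hc hc1 hc2
          exact Icc_subset_uIcc' ⟨by linarith, by linarith⟩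
      obtain ⟨t, ht, htc⟩ := intermediate_value_uIcc
        (f := fun t => w (line s t)) (Continuous.continuousOn (by simp only [hline]; fun_prop)) hcI
      exact ⟨line s t, ⟨⟨(s, t), ⟨hs, by simpa using ht⟩, rfl⟩, htc⟩, hπline s t⟩
    have h1 := (measure_mono hsub).trans (hπl.hausdorffMeasure_image_le zero_le_one (A c))
    rw [show (Measure.hausdorffMeasure 1 : Measure ℝ) = volume from hausdorffMeasure_real,
      Real.volume_Icc, ENNReal.rpow_one] at h1
    calc ENNReal.ofReal (‖e‖ * (2 * δ)) = (‖e‖₊ : ℝ≥0∞) * ENNReal.ofReal (δ - -δ) := by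
          rw [ENNReal.ofReal_mul hnp.le, ← enorm_eq_nnnorm, ← ofReal_norm]
          congr 2
          ring
      _ ≤ (‖e‖₊ : ℝ≥0∞) * ((↑(‖e‖₊⁻¹) : ℝ≥0∞) * Measure.hausdorffMeasure 1 (A c)) :=
          mul_le_mul' le_rfl h1
      _ = _ := by
          rw [← mul_assoc, ← ENNReal.coe_mul, mul_inv_cancel₀ (nnnorm_ne_zero_iff.2 he0),
            ENNReal.coe_one, one_mul]
  have hsubK : (⋃ c : J, A c) ⊆ K ∩ ball 0 r := by
    refine iUnion_subset fun c z hz => ⟨?_, hr hz.1⟩
    by_contra hn
    exact c.2.2 ⟨z, hn, hz.2⟩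
  have hfin' := Measure.finite_const_le_meas_of_disjoint_iUnion
    (Measure.hausdorffMeasure 1 : Measure ℂ)
    (ENNReal.ofReal_pos.2 (mul_pos hnp (by linarith : 0 < 2 * δ)))
    (As := A)
    (fun c => hBc.isClosed.measurableSet.inter (hw.measurable (measurableSet_singleton _)))
    (fun c c' hcc => disjoint_left.2 fun z h1 h2 => hcc (Subtype.ext (h1.2.symm.trans h2.2)))
    (ne_top_of_le_ne_top (hfin r) (measure_mono hsubK))
  have := hJinf.to_subtype
  exact Set.infinite_univ (hfin'.subset fun c _ => hlow c)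

/-- Any potential has the averaged line integrals as increments. -/
theorem sub_eq_val (hR : Reg u K) (hD : HasDensityBound u K) (hvc : Continuous v)
    (hvs : ContDiffOn ℝ ∞ v Kᶜ) (hvg : ∀ x ∉ K, grad v x = rgrad u x) {R : ℝ} (hr : 0 < R)
    (x y : ℂ) : v x - v y = val (rgrad u) R x y := by
  obtain ⟨v₀, hc, hs, hg, hinc⟩ := exists_potential hR hD
  have hU := hR.isClosed.isOpen_compl
  have h := eq_of_grad_eq_zero hR.isClosed hR.length_ne_top (hvc.sub hc) (fun z hz => ?_) x y
  · rw [← hinc R hr x y]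
    simp only [Pi.sub_apply] at h
    linarith
  · have d1 := ((hvs z hz).contDiffAt (hU.mem_nhds hz)).differentiableAt (by simp)
    have d2 := ((hs z hz).contDiffAt (hU.mem_nhds hz)).differentiableAt (by simp)
    have h1 := hvg z hz
    rw [← hg z hz] at h1
    simp only [grad, Complex.ext_iff] at h1
    have : fderiv ℝ v z - fderiv ℝ v₀ z = 0 := by
      ext w
      have e : w = w.re • (1 : ℂ) + w.im • Complex.I := by apply Complex.ext <;> simp
      rw [e, map_add, map_smul, map_smul, sub_apply, sub_apply, zero_apply, h1.1, h1.2]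
      simp
    exact this ▸ d1.hasFDerivAt.sub d2.hasFDerivAt

end Vale.Agent.P128.Connected.Potential
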