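import Vale.Agent.P128.Connected.Potential.Exists

/-!
# The increments of the potential as integrals against the dipole kernel
-/

namespace Vale.Agent.P128.Connected.Potential

open MeasureTheory Filter Metric Set Islands
open scoped Topology ENNReal NNReal

variable {F : ℂ → ℂ} {M : ℝ}

/-- The decay of the dipole kernel seen from one of its poles. -/
noncomputable def dec (s : ℝ) : ℝ := (s * (1 + s))⁻¹

lemma dec_nonneg {s : ℝ} (hs : 0 ≤ s) : 0 ≤ dec s := by unfold dec; positivity

/-- The gradient of `log ‖z - c‖`. -/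
noncomputable def kern (c z : ℂ) : ℂ := (‖z - c‖ ^ 2)⁻¹ • (z - c)

lemma norm_kern (c z : ℂ) : ‖kern c z‖ = ‖z - c‖⁻¹ := by
  rw [kern, norm_smul, norm_inv, norm_pow, norm_norm]
  rcases eq_or_ne z c with rfl | h
  · simp
  · field_simp [norm_ne_zero_iff.2 (sub_ne_zero.2 h)]

lemma kern_eq (c z : ℂ) : kern c z = (starRingEnd ℂ) ((z - c)⁻¹) := by
  rw [kern, Complex.inv_def, map_mul, Complex.conj_conj, Complex.conj_ofReal,
    Complex.normSq_eq_norm_sq, Complex.real_smul, mul_comm]

lemma measurable_kern (c : ℂ) : Measurable (kern c) := by unfold kern; fun_prop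

lemma Growth.lintegral_ball_le (g : Growth F M) (c : ℂ) {r : ℝ} (hr : 0 ≤ r) :
    ∫⁻ z in ball c r, ENNReal.ofReal ‖F z‖ ≤ ENNReal.ofReal (M * (r * Real.sqrt r)) := by
  rw [← ofReal_integral_eq_lintegral_ofReal (g.integrableOn c r).norm
    (Eventually.of_forall fun z => norm_nonneg _)]
  exact ENNReal.ofReal_le_ofReal (g.le c r hr)

/-- The field integrates against the decay of the dipole. -/
theorem Growth.integrable_dec (g : Growth F M) (c : ℂ) :
    Integrable fun z => ‖F z‖ * dec ‖z - c‖ := by
  have hm : Measurable fun z => ‖F z‖ * dec ‖z - c‖ :=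
    g.meas.norm.mul (by unfold dec; fun_prop)
  refine ⟨hm.aestronglyMeasurable, ?_⟩
  rw [hasFiniteIntegral_iff_ofReal
    (Eventually.of_forall fun z => mul_nonneg (norm_nonneg _) (dec_nonneg (norm_nonneg _)))]
  set φ : ℝ → ℝ := fun t => (t ^ 2 * (1 + t))⁻¹ with hφ
  have hφ0 : ∀ t, 0 ≤ t → 0 ≤ φ t := fun t ht => by simp only [hφ]; positivity
  set k : ℂ × ℝ → ℝ≥0∞ := {p : ℂ × ℝ | dist p.1 c < p.2}.indicator
    fun p => 8 * ENNReal.ofReal (φ p.2) * ENNReal.ofReal ‖F p.1‖ with hk
  have hφm : Measurable φ := by simp only [hφ]; fun_prop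
  have hkm : Measurable k :=
    ((measurable_const.mul (hφm.comp measurable_snd).ennreal_ofReal).mul
      (g.meas.comp measurable_fst).norm.ennreal_ofReal).indicator
      (measurableSet_lt (measurable_fst.dist measurable_const) measurable_snd)
  have h1 : ∀ z, ENNReal.ofReal (‖F z‖ * dec ‖z - c‖) ≤ ∫⁻ t in Ioi (0 : ℝ), k (z, t) := by
    intro z
    set s := ‖z - c‖ with hs
    rcases (norm_nonneg (z - c)).eq_or_lt with h | h
    · rw [hs, ← h]; simp [dec]
    calc ENNReal.ofReal (‖F z‖ * dec s)
        ≤ (8 * ENNReal.ofReal (φ (2 * s)) * ENNReal.ofReal ‖F z‖) * volume (Ioo s (2 * s)) := by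
          rw [Real.volume_Ioo, show (8 : ℝ≥0∞) = ENNReal.ofReal 8 by simp,
            ← ENNReal.ofReal_mul (by norm_num),
            ← ENNReal.ofReal_mul (mul_nonneg (by norm_num) (hφ0 _ (by linarith))),
            ← ENNReal.ofReal_mul (mul_nonneg (mul_nonneg (by norm_num) (hφ0 _ (by linarith)))
              (norm_nonneg _))]
          refine ENNReal.ofReal_le_ofReal ?_
          rw [show 8 * φ (2 * s) * ‖F z‖ * (2 * s - s) = ‖F z‖ * (8 * φ (2 * s) * s) by ring]
          refine mul_le_mul_of_nonneg_left ?_ (norm_nonneg _)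
          rw [show 8 * φ (2 * s) * s = 2 / (s * (1 + 2 * s)) by
            simp only [hφ]; field_simp; ring, dec, inv_eq_one_div,
            div_le_div_iff₀ (by positivity) (by positivity)]
          nlinarith
      _ = ∫⁻ _ in Ioo s (2 * s), 8 * ENNReal.ofReal (φ (2 * s)) * ENNReal.ofReal ‖F z‖ :=
          (setLIntegral_const _ _).symm
      _ ≤ ∫⁻ t in Ioo s (2 * s), k (z, t) := by
          refine setLIntegral_mono (hkm.comp measurable_prodMk_left) fun t ht => ?_
          rw [hk, indicator_of_mem (show (z, t) ∈ {p : ℂ × ℝ | dist p.1 c < p.2} by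
            simpa [dist_eq_norm] using ht.1)]
          refine mul_le_mul' (mul_le_mul' le_rfl (ENNReal.ofReal_le_ofReal ?_)) le_rfl
          have ht0 : 0 < t := h.trans ht.1
          simp only [hφ]
          have := ht.2.le
          gcongr
      _ ≤ _ := lintegral_mono_set fun t ht => h.trans ht.1
  refine lt_of_le_of_lt (lintegral_mono h1) ?_
  rw [lintegral_lintegral_swap (f := fun z t => k (z, t)) hkm.aemeasurable]
  have hb : IntegrableOn (fun t => 8 * φ t * (M * (t * Real.sqrt t))) (Ioi 0) := by
    have hM := g.nonneg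
    have hm' : AEStronglyMeasurable (fun t => 8 * φ t * (M * (t * Real.sqrt t)))
        (volume : Measure ℝ) :=
      ((measurable_const.mul hφm).mul (by fun_prop)).aestronglyMeasurable
    rw [← Ioc_union_Ioi_eq_Ioi zero_le_one]
    refine IntegrableOn.union ?_ ?_
    · refine (integrableOn_inv_sqrt one_pos (8 * M)).mono' hm'.restrict
        ((ae_restrict_iff' measurableSet_Ioc).2 (Eventually.of_forall fun t ht => ?_))
      have hs : 0 < Real.sqrt t := Real.sqrt_pos.2 ht.1
      have := hφ0 t ht.1.le
      rw [Real.norm_of_nonneg (mul_nonneg (mul_nonneg (by norm_num) this)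
        (mul_nonneg hM (mul_nonneg ht.1.le hs.le))), mul_one]
      simp only [hφ]
      rw [le_div_iff₀ hs]
      have e : 8 * (t ^ 2 * (1 + t))⁻¹ * (M * (t * Real.sqrt t)) * Real.sqrt t =
          8 * M * (1 + t)⁻¹ := by
        have := Real.mul_self_sqrt ht.1.le
        have ht' := ht.1.ne'
        have h1t : 1 + t ≠ 0 := by linarith [ht.1]
        field_simp
        linear_combination M * this
      rw [e]
      exact mul_le_of_le_one_right (by positivity) (inv_le_one_of_one_le₀ (by linarith [ht.1]))
    · refine ((integrableOn_Ioi_rpow_of_lt (by norm_num : (-(3 : ℝ) / 2) < -1) one_pos).const_mul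
        (8 * M)).mono' hm'.restrict
        ((ae_restrict_iff' measurableSet_Ioi).2 (Eventually.of_forall fun t ht => ?_))
      have ht0 : (0 : ℝ) < t := one_pos.trans ht
      have := hφ0 t ht0.le
      rw [Real.norm_of_nonneg (mul_nonneg (mul_nonneg (by norm_num) this)
        (mul_nonneg hM (mul_nonneg ht0.le (Real.sqrt_nonneg t))))]
      have e : t ^ (-(3 : ℝ) / 2) = (t * Real.sqrt t)⁻¹ := by
        rw [Real.sqrt_eq_rpow, ← Real.rpow_one_add' ht0.le (by norm_num), ← Real.rpow_neg ht0.le]
        norm_num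
      rw [e]
      simp only [hφ]
      have hs : 0 < Real.sqrt t := Real.sqrt_pos.2 ht0
      have hss := Real.mul_self_sqrt ht0.le
      rw [show 8 * (t ^ 2 * (1 + t))⁻¹ * (M * (t * Real.sqrt t)) =
          8 * M * ((t * Real.sqrt t) / (t ^ 2 * (1 + t))) by ring]
      refine mul_le_mul_of_nonneg_left ?_ (by positivity)
      rw [inv_eq_one_div, div_le_div_iff₀ (by positivity) (by positivity)]
      nlinarith [mul_pos ht0 ht0]
  refine lt_of_le_of_lt (setLIntegral_mono' measurableSet_Ioi fun t ht => ?_)
    (hb.hasFiniteIntegral)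
  have ht0 : (0 : ℝ) < t := ht
  calc ∫⁻ z, k (z, t)
      = ∫⁻ z in ball c t, 8 * ENNReal.ofReal (φ t) * ENNReal.ofReal ‖F z‖ := by
        rw [← lintegral_indicator measurableSet_ball]
        rfl
    _ = 8 * ENNReal.ofReal (φ t) * ∫⁻ z in ball c t, ENNReal.ofReal ‖F z‖ :=
        lintegral_const_mul _ g.meas.norm.ennreal_ofReal
    _ ≤ 8 * ENNReal.ofReal (φ t) * ENNReal.ofReal (M * (t * Real.sqrt t)) :=
        mul_le_mul' le_rfl (g.lintegral_ball_le c ht0.le)
    _ = ‖8 * φ t * (M * (t * Real.sqrt t))‖ₑ := by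
        rw [Real.enorm_eq_ofReal (mul_nonneg (mul_nonneg (by norm_num) (hφ0 _ ht0.le))
          (mul_nonneg g.nonneg (by positivity))), ENNReal.ofReal_mul
          (mul_nonneg (by norm_num) (hφ0 _ ht0.le)), ENNReal.ofReal_mul (by norm_num : (0:ℝ) ≤ 8)]
        simp

/-- The radial cut-off of the kernel. -/
noncomputable def cut (R : ℝ) (c z : ℂ) : ℝ := max 0 (1 - (‖z - c‖ / R) ^ 2) ^ 2

lemma cut_mem (R : ℝ) (c z : ℂ) : cut R c z ∈ Icc (0 : ℝ) 1 :=
  ⟨sq_nonneg _, pow_le_one₀ (le_max_left _ _)
    (max_le zero_le_one (by linarith [sq_nonneg (‖z - c‖ / R)]))⟩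

lemma cut_eq_zero {R : ℝ} (hR : 0 < R) {c z : ℂ} (h : R ≤ ‖z - c‖) : cut R c z = 0 := by
  have : 1 ≤ ‖z - c‖ / R := (one_le_div₀ hR).2 h
  rw [cut, max_eq_left (by nlinarith)]; norm_num

lemma setIntegral_bump {σ : ℝ} (hσ : 0 < σ) :
    IntegrableOn (fun t : ℝ => max 0 (1 - (σ / t) ^ 2) / t ^ 3) (Ioc 0 1) ∧
      ∫ t in Ioc (0 : ℝ) 1, max 0 (1 - (σ / t) ^ 2) / t ^ 3 =
        max 0 (1 - σ ^ 2) ^ 2 / (4 * σ ^ 2) := by
  set f := fun t : ℝ => max 0 (1 - (σ / t) ^ 2) / t ^ 3 with hf
  have hz : ∀ t, 0 < t → t ≤ σ → f t = 0 := fun t ht hts => by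
    have : 1 ≤ σ / t := (one_le_div₀ ht).2 hts
    simp only [hf]
    rw [max_eq_left (by nlinarith), zero_div]
  rcases le_or_gt 1 σ with h1 | h1
  · have e : ∀ t ∈ Ioc (0 : ℝ) 1, f t = 0 := fun t ht => hz t ht.1 (ht.2.trans h1)
    refine ⟨(integrableOn_congr_fun e measurableSet_Ioc).2 integrableOn_zero, ?_⟩
    rw [setIntegral_congr_fun measurableSet_Ioc e, max_eq_left (by nlinarith : 1 - σ ^ 2 ≤ 0)]
    simp
  · have e : ∀ t ∈ Ioc σ 1, f t = (1 - (σ / t) ^ 2) / t ^ 3 := fun t ht => by
      have ht0 : 0 < t := hσ.trans ht.1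
      have : σ / t ≤ 1 := (div_le_one₀ ht0).2 ht.1.le
      have h0 : 0 ≤ σ / t := by positivity
      simp only [hf]
      rw [max_eq_right (by nlinarith)]
    have e0 : ∀ t ∈ Ioc (0 : ℝ) σ, f t = 0 := fun t ht => hz t ht.1 ht.2
    have hc : ContinuousOn (fun t : ℝ => (1 - (σ / t) ^ 2) / t ^ 3) (Icc σ 1) := by
      refine ContinuousOn.div ?_ (by fun_prop) fun t ht => pow_ne_zero 3 (hσ.trans_le ht.1).ne'
      exact continuousOn_const.sub ((continuousOn_const.div continuousOn_id
        fun t ht => (hσ.trans_le ht.1).ne').pow 2)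
    have i1 : IntegrableOn f (Ioc σ 1) :=
      (integrableOn_congr_fun e measurableSet_Ioc).2
        ((hc.integrableOn_Icc).mono_set Ioc_subset_Icc_self)
    have i0 : IntegrableOn f (Ioc 0 σ) :=
      (integrableOn_congr_fun e0 measurableSet_Ioc).2 integrableOn_zero
    rw [← Ioc_union_Ioc_eq_Ioc hσ.le h1.le]
    refine ⟨i0.union i1, ?_⟩
    rw [setIntegral_union (Ioc_disjoint_Ioc_of_le le_rfl) measurableSet_Ioc i0 i1,
      setIntegral_congr_fun measurableSet_Ioc e0, setIntegral_congr_fun measurableSet_Ioc e,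
      integral_zero, zero_add, ← intervalIntegral.integral_of_le h1.le,
      intervalIntegral.integral_eq_sub_of_hasDerivAt
        (f := fun t => (1 - σ ^ 2 / t ^ 2) ^ 2 / (4 * σ ^ 2))
        (fun t ht => ?_) ((hc.mono (uIcc_of_le h1.le).subset).intervalIntegrable)]
    · rw [max_eq_right (by nlinarith : (0 : ℝ) ≤ 1 - σ ^ 2)]
      field_simp
      ring
    · rw [uIcc_of_le h1.le] at ht
      have ht0 : t ≠ 0 := (hσ.trans_le ht.1).ne'
      have h2 := (((hasDerivAt_pow 2 t).inv (pow_ne_zero 2 ht0)).const_mul (σ ^ 2)).const_sub 1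
      have h3 := (h2.pow 2).div_const (4 * σ ^ 2)
      simp only [← div_eq_mul_inv, Pi.inv_apply, Pi.pow_apply] at h3
      refine h3.congr_deriv ?_
      have := hσ.ne'
      push_cast
      field_simp
      ring

theorem radial_eq (g : Growth F M) {R : ℝ} (hR : 0 < R) (x : ℂ) :
    radial F R x = (1 / 4) * ∫ z, cut R x z * dot (F z) (kern x z) := by
  set f : ℂ → ℝ → ℝ := fun z t =>
    dot (F z) (z - x) / R ^ 2 * (max 0 (1 - (‖z - x‖ / R / t) ^ 2) / t ^ 3) with hf
  have hpair : ∀ t ∈ Ioc (0 : ℝ) 1, pair F (radW R) x (t * R) = ∫ z, f z t := by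
    intro t ht
    have htR := mul_pos ht.1 hR
    rw [pair_eq_integral F _ x htR, ← integral_const_mul]
    refine integral_congr_ae (Eventually.of_forall fun z => ?_)
    simp only [hf, radW, bell, norm_smul, norm_inv, Real.norm_of_nonneg htR.le]
    rw [show ((t * R)⁻¹ * ‖z - x‖) = ‖z - x‖ / R / t by field_simp]
    simp only [dot, Complex.smul_re, Complex.smul_im, smul_eq_mul]
    have := ht.1.ne'
    field_simp
  have hv : ∀ z, (IntegrableOn (f z) (Ioc 0 1)) ∧ ∫ t in Ioc (0 : ℝ) 1, f z t =
      (1 / 4) * (cut R x z * dot (F z) (kern x z)) := by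
    intro z
    rcases eq_or_ne z x with rfl | hz
    · simp [hf, dot, kern]
    have hs : 0 < ‖z - x‖ := norm_pos_iff.2 (sub_ne_zero.2 hz)
    obtain ⟨hi, he⟩ := setIntegral_bump (div_pos hs hR)
    refine ⟨hi.const_mul _, ?_⟩
    simp only [hf]
    rw [integral_const_mul, he, cut]
    simp only [kern, dot, Complex.smul_re, Complex.smul_im, smul_eq_mul]
    field_simp
  have hm : Measurable (Function.uncurry f) := by
    simp only [hf, Function.uncurry_def]
    exact ((measurable_dot (g.meas.comp measurable_fst) (by fun_prop)).div_const _).mul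
      (by fun_prop)
  have hint : Integrable (Function.uncurry f) (volume.prod (volume.restrict (Ioc 0 1))) := by
    refine (integrable_prod_iff hm.aestronglyMeasurable).2
      ⟨Eventually.of_forall fun z => (hv z).1, ?_⟩
    refine ((g.integrable_dec x).const_mul (1 + R)).mono'
      (hm.norm.stronglyMeasurable.integral_prod_right').aestronglyMeasurable
      (Eventually.of_forall fun z => ?_)
    rw [Real.norm_of_nonneg (integral_nonneg fun t => norm_nonneg _)]
    simp only [Function.uncurry_apply_pair]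
    rcases eq_or_ne z x with rfl | hz
    · simp [hf, dot, dec]
    have hs : 0 < ‖z - x‖ := norm_pos_iff.2 (sub_ne_zero.2 hz)
    obtain ⟨hi, he⟩ := setIntegral_bump (div_pos hs hR)
    have e : ∀ t ∈ Ioc (0 : ℝ) 1, ‖f z t‖ = |dot (F z) (z - x) / R ^ 2| *
        (max 0 (1 - (‖z - x‖ / R / t) ^ 2) / t ^ 3) := fun t ht => by
      simp only [hf, norm_mul, Real.norm_eq_abs]
      congr 1
      exact abs_of_nonneg (div_nonneg (le_max_left _ _) (pow_nonneg ht.1.le 3))
    rw [setIntegral_congr_fun measurableSet_Ioc e, integral_const_mul, he, abs_div,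
      abs_of_pos (pow_pos hR 2)]
    have hd := (abs_dot_le (F z) (z - x))
    have hc := cut_mem R x z
    calc |dot (F z) (z - x)| / R ^ 2 *
          (max 0 (1 - (‖z - x‖ / R) ^ 2) ^ 2 / (4 * (‖z - x‖ / R) ^ 2))
        = |dot (F z) (z - x)| * cut R x z / (4 * ‖z - x‖ ^ 2) := by
          rw [cut]; field_simp
      _ ≤ ‖F z‖ * ‖z - x‖ * cut R x z / (4 * ‖z - x‖ ^ 2) := by
          refine div_le_div_of_nonneg_right (mul_le_mul_of_nonneg_right hd hc.1) (by positivity)
      _ = ‖F z‖ * (cut R x z / (4 * ‖z - x‖)) := by field_simp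
      _ ≤ (1 + R) * (‖F z‖ * dec ‖z - x‖) := by
          rw [mul_left_comm]
          refine mul_le_mul_of_nonneg_left ?_ (norm_nonneg _)
          rcases le_or_gt R ‖z - x‖ with hle | hlt
          · rw [cut_eq_zero hR hle, zero_div]
            exact mul_nonneg (by linarith) (dec_nonneg hs.le)
          · rw [dec, mul_inv, ← mul_assoc, div_le_iff₀ (by positivity)]
            have : (1 + R) * ‖z - x‖⁻¹ * (1 + ‖z - x‖)⁻¹ * (4 * ‖z - x‖) =
                4 * ((1 + R) / (1 + ‖z - x‖)) := by field_simp
            rw [this]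
            have h5 : 1 ≤ (1 + R) / (1 + ‖z - x‖) := by
              rw [le_div_iff₀ (by linarith)]; linarith
            linarith [hc.2]
  rw [radial, setIntegral_congr_fun measurableSet_Ioc hpair, ← integral_integral_swap hint,
    ← integral_const_mul]
  exact integral_congr_ae (Eventually.of_forall fun z => (hv z).2)

/-- The dipole decays like `dec` seen from either pole. -/
lemma norm_kern_sub_le (x y z : ℂ) :
    ‖kern x z - kern y z‖ ≤
      (3 * (‖x - y‖ + 1) + 2) * (dec ‖z - x‖ + dec ‖z - y‖) := by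
  have h0 : 0 ≤ 3 * (‖x - y‖ + 1) + 2 := by positivity
  have hd := fun c => dec_nonneg (norm_nonneg (z - c))
  rcases eq_or_ne x y with rfl | hxy
  · rw [sub_self (kern x z), norm_zero]
    exact mul_nonneg h0 (add_nonneg (hd x) (hd x))
  set D := ‖x - y‖ with hD
  have hD0 : 0 < D := norm_pos_iff.2 (sub_ne_zero.2 hxy)
  rcases eq_or_ne z x with hzx | hzx
  · subst hzx
    have e : kern z z = 0 := by simp [kern]
    rw [e, zero_sub, norm_neg, norm_kern, sub_self, norm_zero, dec, dec, zero_mul, inv_zero,
      zero_add, ← hD, mul_inv, ← mul_assoc]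
    rw [mul_comm (3 * (D + 1) + 2), mul_assoc]
    refine le_mul_of_one_le_right (by positivity) ?_
    rw [← div_eq_mul_inv, le_div_iff₀ (by positivity)]
    linarith
  rcases eq_or_ne z y with hzy | hzy
  · subst hzy
    have e : kern z z = 0 := by simp [kern]
    rw [e, sub_zero, norm_kern, sub_self, norm_zero, norm_sub_rev z x, ← hD, dec, dec, zero_mul,
      inv_zero, add_zero, mul_inv, ← mul_assoc]
    rw [mul_comm (3 * (D + 1) + 2), mul_assoc]
    refine le_mul_of_one_le_right (by positivity) ?_
    rw [← div_eq_mul_inv, le_div_iff₀ (by positivity)]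
    linarith
  set a := ‖z - x‖ with ha
  set b := ‖z - y‖ with hb
  have ha0 : 0 < a := norm_pos_iff.2 (sub_ne_zero.2 hzx)
  have hb0 : 0 < b := norm_pos_iff.2 (sub_ne_zero.2 hzy)
  have hab : D ≤ a + b := by
    have := norm_sub_le_norm_sub_add_norm_sub x z y
    rwa [norm_sub_rev x z] at this
  have hk : ‖kern x z - kern y z‖ = D / (a * b) := by
    rw [kern_eq, kern_eq, ← map_sub, Complex.norm_conj,
      inv_sub_inv (sub_ne_zero.2 hzx) (sub_ne_zero.2 hzy), norm_div, norm_mul, ← ha, ← hb,
      show z - y - (z - x) = x - y by ring]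
  rw [hk]
  have key : ∀ a b : ℝ, 0 < a → 0 < b → a ≤ b → D ≤ a + b →
      D / (a * b) ≤ (3 * (D + 1) + 2) * dec a := by
    intro a b ha hb hle hab
    rw [dec, ← div_eq_mul_inv, div_le_div_iff₀ (by positivity) (by positivity)]
    nlinarith [mul_le_mul_of_nonneg_left hle (mul_nonneg ha.le hD0.le),
      mul_le_mul_of_nonneg_left hab ha.le, mul_le_mul_of_nonneg_left hle ha.le]
  rcases le_total a b with h | h
  · exact (key a b ha0 hb0 h hab).trans
      (mul_le_mul_of_nonneg_left (le_add_of_nonneg_right (hd y)) h0)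
  · rw [mul_comm a b]
    exact (key b a hb0 ha0 h (by linarith)).trans
      (mul_le_mul_of_nonneg_left (le_add_of_nonneg_left (hd x)) h0)

theorem integrable_dot_dipole (g : Growth F M) (x y : ℂ) :
    Integrable fun z => dot (F z) (kern x z - kern y z) := by
  refine (((g.integrable_dec x).add (g.integrable_dec y)).const_mul
    (3 * (‖x - y‖ + 1) + 2)).mono'
    (measurable_dot g.meas ((measurable_kern x).sub (measurable_kern y))).aestronglyMeasurable
    (Eventually.of_forall fun z => ?_)
  rw [Real.norm_eq_abs]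
  refine (abs_dot_le _ _).trans ((mul_le_mul_of_nonneg_left (norm_kern_sub_le x y z)
    (norm_nonneg _)).trans (le_of_eq ?_))
  simp only [Pi.add_apply]
  ring

/-- As the radius grows the radial integrals give the dipole integral. -/
theorem tendsto_radial_sub (g : Growth F M) (x y : ℂ) :
    Tendsto (fun R => radial F R x - radial F R y) atTop
      (𝓝 ((1 / 4) * ∫ z, dot (F z) (kern x z - kern y z))) := by
  set D := ‖x - y‖
  set C := 3 * (D + 1) + 2 + 8 * (D + 1) * (D * (D + 2)) with hC
  set f : ℝ → ℂ → ℝ := fun R z =>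
    cut R x z * dot (F z) (kern x z) - cut R y z * dot (F z) (kern y z) with hf
  have hcm : ∀ R c, Measurable (cut R c) := fun R c => by unfold cut; fun_prop
  have hi : ∀ R, 0 < R → ∀ c, Integrable fun z => cut R c z * dot (F z) (kern c z) := by
    intro R hR c
    refine ((g.integrable_dec c).const_mul (1 + R)).mono'
      ((hcm R c).mul (measurable_dot g.meas (measurable_kern c))).aestronglyMeasurable
      (Eventually.of_forall fun z => ?_)
    rw [Real.norm_eq_abs, abs_mul, abs_of_nonneg (cut_mem R c z).1]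
    refine (mul_le_mul_of_nonneg_left (abs_dot_le _ _) (cut_mem R c z).1).trans ?_
    rw [norm_kern]
    rcases le_or_gt R ‖z - c‖ with hle | hlt
    · rw [cut_eq_zero hR hle, zero_mul]
      exact mul_nonneg (by linarith) (mul_nonneg (norm_nonneg _) (dec_nonneg (norm_nonneg _)))
    · calc cut R c z * (‖F z‖ * ‖z - c‖⁻¹) ≤ 1 * (‖F z‖ * ‖z - c‖⁻¹) :=
            mul_le_mul_of_nonneg_right (cut_mem R c z).2 (by positivity)
        _ = ‖F z‖ * (‖z - c‖⁻¹ * 1) := by ring
        _ ≤ ‖F z‖ * (‖z - c‖⁻¹ * ((1 + R) * (1 + ‖z - c‖)⁻¹)) := by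
            gcongr
            rw [← div_eq_mul_inv, le_div_iff₀ (by positivity)]
            linarith
        _ = (1 + R) * (‖F z‖ * dec ‖z - c‖) := by rw [dec, mul_inv]; ring
  have hlim : Tendsto (fun R => ∫ z, f R z) atTop
      (𝓝 (∫ z, dot (F z) (kern x z - kern y z))) := by
    refine tendsto_integral_filter_of_dominated_convergence
      (fun z => C * (‖F z‖ * dec ‖z - x‖ + ‖F z‖ * dec ‖z - y‖))
      (Eventually.of_forall fun R =>
        (((hcm R x).mul (measurable_dot g.meas (measurable_kern x))).sub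
          ((hcm R y).mul (measurable_dot g.meas (measurable_kern y)))).aestronglyMeasurable)
      ((eventually_ge_atTop 1).mono fun R hR => Eventually.of_forall fun z => ?_)
      (((g.integrable_dec x).add (g.integrable_dec y)).const_mul C)
      (Eventually.of_forall fun z => ?_)
    · have hR0 : (0 : ℝ) < R := one_pos.trans_le hR
      have hx := cut_mem R x z
      have hy := cut_mem R y z
      have hdx := dec_nonneg (norm_nonneg (z - x))
      have hdy := dec_nonneg (norm_nonneg (z - y))
      have e : f R z = cut R x z * dot (F z) (kern x z - kern y z) +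
          (cut R x z - cut R y z) * dot (F z) (kern y z) := by
        simp [hf, dot]; ring
      have b1 : |cut R x z * dot (F z) (kern x z - kern y z)| ≤
          ‖F z‖ * ((3 * (D + 1) + 2) * (dec ‖z - x‖ + dec ‖z - y‖)) := by
        rw [abs_mul, abs_of_nonneg hx.1]
        exact (mul_le_of_le_one_left (abs_nonneg _) hx.2).trans ((abs_dot_le _ _).trans
          (mul_le_mul_of_nonneg_left (norm_kern_sub_le x y z) (norm_nonneg _)))
      have b2 : |(cut R x z - cut R y z) * dot (F z) (kern y z)| ≤
          ‖F z‖ * (8 * (D + 1) * (D * (D + 2)) * dec ‖z - y‖) := by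
        rw [abs_mul]
        refine (mul_le_mul_of_nonneg_left (abs_dot_le _ _) (abs_nonneg _)).trans ?_
        rw [norm_kern, mul_left_comm]
        refine mul_le_mul_of_nonneg_left ?_ (norm_nonneg _)
        set a := ‖z - x‖
        set b := ‖z - y‖
        have hab : |a - b| ≤ D := by
          have h1 := abs_norm_sub_norm_le (z - x) (z - y)
          rwa [show z - x - (z - y) = -(x - y) by ring, norm_neg] at h1
        rcases (norm_nonneg (z - y)).eq_or_lt with hb | hb
        · rw [show b = 0 from hb.symm]; simp [dec]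
        rcases le_or_gt (R + D) b with hle | hlt
        · have ha : R ≤ a := by linarith [(abs_le.1 hab).1]
          rw [cut_eq_zero hR0 ha, cut_eq_zero hR0 (by linarith [norm_nonneg (x - y)] : R ≤ b),
            sub_zero, abs_zero, zero_mul]
          exact mul_nonneg (by positivity) hdy
        · have ha : a ≤ R + 2 * D := by linarith [(abs_le.1 hab).2]
          set p := a / R with hp
          set q := b / R with hq
          have hpq : |p - q| ≤ D / R := by
            rw [hp, hq, ← sub_div, abs_div, abs_of_pos hR0]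
            exact div_le_div_of_nonneg_right hab hR0.le
          have hcl : |cut R x z - cut R y z| ≤ 8 * (D + 1) * (D / R) := by
            have e1 : cut R x z - cut R y z =
                (max 0 (1 - p ^ 2) + max 0 (1 - q ^ 2)) *
                  (max 0 (1 - p ^ 2) - max 0 (1 - q ^ 2)) := by
              simp only [cut, hp, hq, a, b]; ring
            rw [e1, abs_mul]
            have m1 : |max 0 (1 - p ^ 2) + max 0 (1 - q ^ 2)| ≤ 2 := by
              rw [abs_of_nonneg (by positivity)]
              linarith [max_le zero_le_one (show 1 - p ^ 2 ≤ 1 by nlinarith),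
                max_le zero_le_one (show 1 - q ^ 2 ≤ 1 by nlinarith)]
            have m2 : |max 0 (1 - p ^ 2) - max 0 (1 - q ^ 2)| ≤ |(p + q) * (p - q)| := by
              refine (abs_max_sub_max_le_max _ _ _ _).trans (le_of_eq ?_)
              rw [sub_self, abs_zero, max_eq_right (abs_nonneg _),
                show (1 - p ^ 2) - (1 - q ^ 2) = -((p + q) * (p - q)) by ring, abs_neg]
            have hpq' : |p + q| ≤ 4 * (D + 1) := by
              rw [abs_of_nonneg (by positivity), hp, hq, ← add_div, div_le_iff₀ hR0]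
              nlinarith [norm_nonneg (x - y)]
            calc _ ≤ 2 * (4 * (D + 1) * (D / R)) := by
                  refine mul_le_mul m1 (m2.trans ?_) (abs_nonneg _) zero_le_two
                  rw [abs_mul]
                  exact mul_le_mul hpq' hpq (abs_nonneg _) (by positivity)
              _ = _ := by ring
          calc |cut R x z - cut R y z| * b⁻¹ ≤ 8 * (D + 1) * (D / R) * b⁻¹ :=
                mul_le_mul_of_nonneg_right hcl (by positivity)
            _ ≤ 8 * (D + 1) * (D * (D + 2)) * dec b := by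
                rw [dec, mul_inv, mul_assoc, mul_assoc (8 * (D + 1))]
                refine mul_le_mul_of_nonneg_left ?_ (by positivity)
                rw [mul_comm b⁻¹, ← mul_assoc]
                refine mul_le_mul_of_nonneg_right ?_ (by positivity)
                rw [← div_eq_mul_inv, div_le_div_iff₀ hR0 (by positivity)]
                nlinarith [mul_le_mul_of_nonneg_left
                  (show 1 + b ≤ (D + 2) * R by
                    nlinarith [mul_le_mul_of_nonneg_left hR (norm_nonneg (x - y))])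
                  (norm_nonneg (x - y))]
      rw [Real.norm_eq_abs, e]
      refine (abs_add_le _ _).trans ((add_le_add b1 b2).trans ?_)
      rw [hC]
      have h8 : 0 ≤ 8 * (D + 1) * (D * (D + 2)) * (‖F z‖ * dec ‖z - x‖) := by positivity
      linarith
    · have hc : ∀ c, Tendsto (fun R => cut R c z) atTop (𝓝 1) := fun c => by
        have h := ((continuous_const.max (continuous_const.sub (continuous_id.pow 2))).pow 2
          : Continuous fun p : ℝ => max (0 : ℝ) (1 - p ^ 2) ^ 2).tendsto 0
        simpa [cut, Function.comp_def] using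
          h.comp ((tendsto_const_nhds (x := ‖z - c‖)).div_atTop tendsto_id)
      have h := ((hc x).mul_const (dot (F z) (kern x z))).sub
        ((hc y).mul_const (dot (F z) (kern y z)))
      convert h using 2
      simp [dot]; ring
  refine (hlim.const_mul (1 / 4)).congr' ((eventually_gt_atTop 0).mono fun R hR => ?_)
  simp only [hf]
  rw [integral_sub (hi R hR x) (hi R hR y), radial_eq g hR x, radial_eq g hR y, mul_sub]

/-- The increment of a potential is its dipole integral. -/
theorem sub_eq_dipole {u v : ℂ → ℝ} {K : Set ℂ} (hR : Reg u K) (hD : HasDensityBound u K)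
    (hvc : Continuous v) (hvs : ContDiffOn ℝ (⊤ : ℕ∞) v Kᶜ)
    (hvg : ∀ x ∉ K, grad v x = rgrad u x) (x y : ℂ) :
    v x - v y =
      -((1 / 4) * ∫ z, dot (rgrad u z) (kern x z - kern y z)) / ∫ z, bell z := by
  have g := growth_rgrad hR hD
  have h0 : Tendsto (fun R => shift (rgrad u) R x y) atTop (𝓝 0) := by
    refine squeeze_zero_norm' ((eventually_gt_atTop 0).mono fun R hR' => abs_shift_le g hR' x y) ?_
    exact tendsto_const_nhds.div_atTop Real.tendsto_sqrt_atTop
  have h := (h0.sub (tendsto_radial_sub g x y)).div_const (∫ z, bell z)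
  rw [zero_sub] at h
  refine tendsto_nhds_unique (tendsto_const_nhds (x := v x - v y)) (h.congr' ?_)
  filter_upwards [eventually_gt_atTop 0] with R hR'
  rw [sub_eq_val hR hD hvc hvs hvg hR' x y, val]
  ring

end Vale.Agent.P128.Connected.Potential
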