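import Vale.Agent.P128.Connected.Potential.Pairing

/-!
# Mollified fields and their potentials
-/

namespace Vale.Agent.P128.Connected.Potential

open MeasureTheory Filter Metric Set Islands ContinuousLinearMap
open scoped Topology ENNReal NNReal ContDiff Convolution

variable {F h : ℂ → ℂ} {M H : ℝ}

attribute [local fun_prop] continuous_bell

lemma swap_aux (f : ℝ → ℂ → ℝ) (hf : Continuous (Function.uncurry f))
    (h0 : ∀ t z, 1 ≤ ‖z‖ → f t z = 0) :
    ∫ t in Ioc (0 : ℝ) 1, ∫ z, f t z = ∫ z, ∫ t in (0 : ℝ)..1, f t z := by
  have e1 : ∀ t, ∫ z, f t z = ∫ z in closedBall (0 : ℂ) 1, f t z := fun t =>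
    (setIntegral_eq_integral_of_forall_compl_eq_zero fun z hz =>
      h0 t z (by simpa using (not_le.1 (by simpa using hz : ¬ ‖z‖ ≤ 1)).le)).symm
  have e2 : ∀ z, ∫ t in (0 : ℝ)..1, f t z = ∫ t in Ioc (0 : ℝ) 1, f t z := fun z =>
    intervalIntegral.integral_of_le zero_le_one
  have e3 : ∫ z in closedBall (0 : ℂ) 1, (∫ t in (0 : ℝ)..1, f t z) =
      ∫ z, ∫ t in (0 : ℝ)..1, f t z :=
    setIntegral_eq_integral_of_forall_compl_eq_zero fun z hz => by
      simp [h0 _ z (by simpa using (not_le.1 (by simpa using hz : ¬ ‖z‖ ≤ 1)).le)]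
  rw [← e3]
  simp only [e1, e2]
  refine integral_integral_swap (μ := (volume : Measure ℝ).restrict (Ioc 0 1))
    (ν := (volume : Measure ℂ).restrict (closedBall 0 1)) ?_
  rw [Measure.prod_restrict]
  exact (hf.continuousOn.integrableOn_compact
    (isCompact_Icc.prod (isCompact_closedBall 0 1))).mono_set
      (prod_mono Ioc_subset_Icc_self subset_rfl)

/-- For the gradient of a function the averaged line integrals are the increments. -/
theorem val_of_gradient {w : ℂ → ℝ} {Φ : ℂ → ℂ} (hΦ : Continuous Φ)
    (hw : ∀ x, HasFDerivAt w (innerSL ℝ (Φ x)) x) (R : ℝ) (x y : ℂ) :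
    val Φ R x y = w x - w y := by
  have hwc : Continuous w := continuous_iff_continuousAt.2 fun x => (hw x).continuousAt
  have ftc : ∀ a v : ℂ, ∫ t in (0 : ℝ)..1, dot (Φ (a + t • v)) v = w (a + v) - w a := by
    intro a v
    have hd : ∀ t : ℝ, HasDerivAt (fun s : ℝ => w (a + s • v)) (dot (Φ (a + t • v)) v) t := by
      intro t
      have h1 : HasDerivAt (fun s : ℝ => a + s • v) v t := by
        simpa using ((hasDerivAt_id t).smul_const v).const_add a
      have h2 := (hw (a + t • v)).comp_hasDerivAt t h1
      simpa [innerSL_apply_apply, dot, Function.comp_def, mul_comm] using h2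
    rw [intervalIntegral.integral_eq_sub_of_hasDerivAt (fun t _ => hd t)]
    · simp
    · refine Continuous.intervalIntegrable ?_ _ _
      simp only [dot]
      fun_prop
  have hint : ∀ a : ℂ, Integrable fun z => bell z * w (a + R • z) := fun a =>
    (continuous_bell.mul (hwc.comp (by fun_prop))).integrable_of_hasCompactSupport
      (HasCompactSupport.intro (isCompact_closedBall (0 : ℂ) 1) fun z hz => by
        simp [bell_eq_zero (z := z) (by simpa using (not_le.1 (by simpa using hz : ¬ ‖z‖ ≤ 1)).le)])
  have hrad : ∀ a : ℂ, radial Φ R a = (∫ z, bell z * w (a + R • z)) - (∫ z, bell z) * w a := by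
    intro a
    rw [radial]
    simp only [pair]
    rw [swap_aux (fun t z => dot (Φ (a + (t * R) • z)) (radW R z))]
    · rw [← integral_mul_const, ← integral_sub (hint a) (integrable_bell.mul_const _)]
      refine integral_congr_ae (Eventually.of_forall fun z => ?_)
      calc ∫ t in (0 : ℝ)..1, dot (Φ (a + (t * R) • z)) (radW R z)
          = ∫ t in (0 : ℝ)..1, bell z * dot (Φ (a + t • R • z)) (R • z) := by
            refine intervalIntegral.integral_congr fun t _ => ?_
            simp [radW, dot, mul_assoc]
            ring
        _ = bell z * w (a + R • z) - bell z * w a := by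
            rw [intervalIntegral.integral_const_mul, ftc a (R • z), mul_sub]
    · have hc : Continuous fun p : ℝ × ℂ => radW R p.2 :=
        (continuous_bell.smul (continuous_id.const_smul R)).comp continuous_snd
      simp only [dot, Function.uncurry_def]
      fun_prop
    · intro t z hz
      simp [radW, bell_eq_zero hz, dot]
  have hsh : shift Φ R x y =
      (∫ z, bell z * w (x + R • z)) - ∫ z, bell z * w (y + R • z) := by
    rw [shift]
    simp only [pair]
    rw [swap_aux (fun t z => dot (Φ (y + t • (x - y) + R • z)) (transW x y z))]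
    · rw [← integral_sub (hint x) (hint y)]
      refine integral_congr_ae (Eventually.of_forall fun z => ?_)
      calc ∫ t in (0 : ℝ)..1, dot (Φ (y + t • (x - y) + R • z)) (transW x y z)
          = ∫ t in (0 : ℝ)..1, bell z * dot (Φ ((y + R • z) + t • (x - y))) (x - y) := by
            refine intervalIntegral.integral_congr fun t _ => ?_
            simp only [transW, dot, Complex.smul_re, Complex.smul_im, smul_eq_mul]
            rw [add_right_comm]
            ring
        _ = bell z * w (x + R • z) - bell z * w (y + R • z) := by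
            rw [intervalIntegral.integral_const_mul, ftc (y + R • z) (x - y), mul_sub,
              show y + R • z + (x - y) = x + R • z by abel]
    · have hc : Continuous fun p : ℝ × ℂ => transW x y p.2 :=
        (continuous_bell.smul continuous_const).comp continuous_snd
      simp only [dot, Function.uncurry_def]
      fun_prop
    · intro t z hz
      simp [transW, bell_eq_zero hz, dot]
  rw [val, hsh, hrad x, hrad y]
  field_simp [integral_bell_pos.ne']
  ring

/-- Shrinking bumps. -/
noncomputable def bump (n : ℕ) : ContDiffBump (0 : ℂ) where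
  rIn := ((n : ℝ) + 1)⁻¹ / 2
  rOut := ((n : ℝ) + 1)⁻¹
  rIn_pos := by positivity
  rIn_lt_rOut := half_lt_self (by positivity)

lemma tendsto_bump : Tendsto (fun n => (bump n).rOut) atTop (𝓝 0) := by
  simpa [bump, one_div] using tendsto_one_div_add_atTop_nhds_zero_nat (𝕜 := ℝ)

/-- The mollified field. -/
noncomputable def moll {E : Type*} [NormedAddCommGroup E] [NormedSpace ℝ E] (n : ℕ) (f : ℂ → E) :
    ℂ → E :=
  (bump n).normed volume ⋆[lsmul ℝ ℝ, volume] f

lemma moll_apply {E : Type*} [NormedAddCommGroup E] [NormedSpace ℝ E] (n : ℕ) (f : ℂ → E)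
    (x : ℂ) : moll n f x = ∫ s, (bump n).normed volume s • f (x - s) := rfl

lemma hasFDerivAt_moll (g : Growth F M) (n : ℕ) (x : ℂ) :
    HasFDerivAt (moll n F)
      ((fderiv ℝ ((bump n).normed volume) ⋆[(lsmul ℝ ℝ).precompL ℂ, volume] F) x) x :=
  (bump n).hasCompactSupport_normed.hasFDerivAt_convolution_left (lsmul ℝ ℝ)
    ((bump n).contDiff_normed (n := 1)) g.locallyIntegrable x

lemma continuous_moll (g : Growth F M) (n : ℕ) : Continuous (moll n F) :=
  continuous_iff_continuousAt.2 fun x => (hasFDerivAt_moll g n x).continuousAt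

lemma pair_moll (g : Growth F M) (w : Weight h H) {ρ : ℝ} (hρ : 0 < ρ) (n : ℕ) (a : ℂ) :
    pair (moll n F) h a ρ = moll n (fun s => pair F h s ρ) a := by
  set φ := (bump n).normed (volume : Measure ℂ)
  have hφc : Continuous φ := (bump n).continuous_normed
  have hφi : Integrable φ := hφc.integrable_of_hasCompactSupport (bump n).hasCompactSupport_normed
  have hin : ∀ z, dot (moll n F (a + ρ • z)) (h z) =
      ∫ s, φ s * dot (F (a - s + ρ • z)) (h z) := by
    intro z
    have hi : Integrable fun s => φ s • F (a + ρ • z - s) :=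
      ((bump n).hasCompactSupport_normed.convolutionExists_left (lsmul ℝ ℝ) hφc
        g.locallyIntegrable _).integrable
    rw [moll_apply, dot_eq_inner, real_inner_comm, ← innerSL_apply_apply (𝕜 := ℝ),
      ← ContinuousLinearMap.integral_comp_comm _ hi]
    refine integral_congr_ae (Eventually.of_forall fun s => ?_)
    simp only [map_smul, innerSL_apply_apply, smul_eq_mul]
    rw [real_inner_comm, ← dot_eq_inner, show a + ρ • z - s = a - s + ρ • z by abel]
  have hm : Measurable fun p : ℂ × ℂ => φ p.2 * dot (F (a - p.2 + ρ • p.1)) (h p.1) :=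
    (hφc.measurable.comp measurable_snd).mul
      (measurable_dot (g.meas.comp (by fun_prop)) (w.cont.measurable.comp measurable_fst))
  have hint : Integrable (Function.uncurry fun z s : ℂ => φ s * dot (F (a - s + ρ • z)) (h z))
      (volume.prod volume) := by
    refine (integrable_prod_iff' hm.aestronglyMeasurable).2 ⟨Eventually.of_forall fun s =>
      (pair_integrable g w (a - s) hρ).const_mul (φ s), ?_⟩
    have hm2 : AEStronglyMeasurable
        (fun s : ℂ => ∫ z, ‖φ s * dot (F (a - s + ρ • z)) (h z)‖) volume :=
      ((hm.norm.comp measurable_swap).stronglyMeasurable.integral_prod_right').aestronglyMeasurable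
    refine (hφi.norm.mul_const (H * M / Real.sqrt ρ)).mono' hm2
      (Eventually.of_forall fun s => ?_)
    rw [Real.norm_of_nonneg (integral_nonneg fun z => norm_nonneg _)]
    simp only [norm_mul]
    rw [integral_const_mul]
    exact mul_le_mul_of_nonneg_left (integral_abs_pair_le g w _ hρ) (norm_nonneg _)
  rw [pair, moll_apply, integral_congr_ae (Eventually.of_forall hin), integral_integral_swap hint]
  refine integral_congr_ae (Eventually.of_forall fun s => ?_)
  simp [pair, integral_const_mul, φ]

lemma abs_pair_moll_le (g : Growth F M) (w : Weight h H) {ρ : ℝ} (hρ : 0 < ρ) (n : ℕ) (a : ℂ) :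
    |pair (moll n F) h a ρ| ≤ H * M / Real.sqrt ρ := by
  rw [pair_moll g w hρ n a]
  have h1 := dist_convolution_le (μ := (volume : Measure ℂ))
    (g := fun s => pair F h s ρ) (x₀ := a) (z₀ := (0 : ℝ))
    (by have := (abs_nonneg _).trans (abs_pair_le g w a hρ); exact this)
    (bump n).support_normed_eq.subset (bump n).nonneg_normed (bump n).integral_normed
    (continuous_pair g w hρ).aestronglyMeasurable
    (fun x _ => by simpa [Real.dist_eq] using abs_pair_le g w x hρ)
  simpa [Real.dist_eq, moll] using h1

lemma tendsto_pair_moll (g : Growth F M) (w : Weight h H) {ρ : ℝ} (hρ : 0 < ρ) (a : ℂ) :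
    Tendsto (fun n => pair (moll n F) h a ρ) atTop (𝓝 (pair F h a ρ)) := by
  simp only [pair_moll g w hρ _ a]
  exact ContDiffBump.convolution_tendsto_right_of_continuous tendsto_bump
    (continuous_pair g w hρ) a

theorem tendsto_val_moll (g : Growth F M) {R : ℝ} (hR : 0 < R) (x y : ℂ) :
    Tendsto (fun n => val (moll n F) R x y) atTop (𝓝 (val F R x y)) := by
  have hr : ∀ a, Tendsto (fun n => radial (moll n F) R a) atTop (𝓝 (radial F R a)) := fun a =>
    tendsto_integral_of_dominated_convergence (fun t => R * M / Real.sqrt (t * R))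
      (fun n => aestronglyMeasurable_pair_path (continuous_moll g n).measurable
        (weight_radW hR.le).cont.measurable measurable_const (measurable_id.mul_const R) _)
      (integrableOn_inv_sqrt hR _)
      (fun n => (ae_restrict_iff' measurableSet_Ioc).2 (Eventually.of_forall fun t ht => by
        rw [Real.norm_eq_abs]
        exact abs_pair_moll_le g (weight_radW hR.le) (mul_pos ht.1 hR) n a))
      ((ae_restrict_iff' measurableSet_Ioc).2 (Eventually.of_forall fun t ht =>
        tendsto_pair_moll g (weight_radW hR.le) (mul_pos ht.1 hR) a))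
  have hs : Tendsto (fun n => shift (moll n F) R x y) atTop (𝓝 (shift F R x y)) :=
    tendsto_integral_of_dominated_convergence (fun _ => ‖x - y‖ * M / Real.sqrt R)
      (fun n => aestronglyMeasurable_pair_path (continuous_moll g n).measurable
        (weight_transW x y).cont.measurable (by fun_prop) measurable_const _)
      (integrableOn_const (by simp))
      (fun n => Eventually.of_forall fun t => by
        rw [Real.norm_eq_abs]
        exact abs_pair_moll_le g (weight_transW x y) hR n _)
      (Eventually.of_forall fun t => tendsto_pair_moll g (weight_transW x y) hR _)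
  exact ((hs.sub (hr x)).add (hr y)).div_const _

/-- A weakly curl free field has a potential after mollification. -/
theorem exists_potential_moll (g : Growth F M)
    (hcurl : ∀ φ, IsTest univ φ → ∫ x, dot (F x) (rgrad φ x) = 0) (n : ℕ) :
    ∃ w : ℂ → ℝ, ∀ x, HasFDerivAt w (innerSL ℝ (moll n F x)) x := by
  set φ := (bump n).normed (volume : Measure ℂ) with hφdef
  have hφs : ContDiff ℝ ∞ φ := (bump n).contDiff_normed
  have hφk : HasCompactSupport φ := (bump n).hasCompactSupport_normed
  have key : ∀ x, (fderiv ℝ (moll n F) x 1).im = (fderiv ℝ (moll n F) x Complex.I).re := by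
    intro x
    let L₀ : (ℂ →L[ℝ] ℝ) →L[ℝ] ℂ →L[ℝ] (ℂ →L[ℝ] ℂ) :=
      ((lsmul ℝ ℝ : ℝ →L[ℝ] ℂ →L[ℝ] ℂ)).precompL ℂ
    have hint : Integrable fun t => L₀ (fderiv ℝ φ t) (F (x - t)) :=
      ((hφk.fderiv ℝ).convolutionExists_left L₀
        (hφs.continuous_fderiv (by simp)) g.locallyIntegrable x).integrable
    have hD : ∀ e, fderiv ℝ (moll n F) x e = ∫ t, fderiv ℝ φ (x - t) e • F t := by
      intro e
      rw [(hasFDerivAt_moll g n x).fderiv, convolution_def,
        ContinuousLinearMap.integral_apply hint,
        ← integral_sub_left_eq_self (fun t => fderiv ℝ φ (x - t) e • F t) volume x]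
      refine integral_congr_ae (Eventually.of_forall fun t => ?_)
      simp [L₀, ContinuousLinearMap.precompL_apply, φ]
    have hi : ∀ e, Integrable fun t => fderiv ℝ φ (x - t) e • F t := fun e => by
      have h1 := (hint.comp_sub_left x).apply_continuousLinearMap e
      refine h1.congr (Eventually.of_forall fun t => ?_)
      simp [L₀, ContinuousLinearMap.precompL_apply]
    have hdφ : ∀ t e, fderiv ℝ (fun s => φ (x - s)) t e = -fderiv ℝ φ (x - t) e := by
      intro t e
      have := ((hφs.differentiable (by simp) (x - t)).hasFDerivAt.comp t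
        ((hasFDerivAt_id t).const_sub x)).fderiv
      simp only [Function.comp_def] at this
      rw [this]
      simp
    have htest : IsTest univ fun t => φ (x - t) :=
      ⟨hφs.comp (contDiff_const.sub contDiff_id),
        hφk.comp_homeomorph (Homeomorph.subLeft x), subset_univ _⟩
    have h0 := hcurl _ htest
    have e0 : (fun t => dot (F t) (rgrad (fun s => φ (x - s)) t)) = fun t =>
        Complex.reCLM (fderiv ℝ φ (x - t) Complex.I • F t) -
          Complex.imCLM (fderiv ℝ φ (x - t) 1 • F t) := by
      funext t
      simp [dot, rgrad_re, rgrad_im, hdφ]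
      ring
    rw [e0, integral_sub (Complex.reCLM.integrable_comp (hi _))
      (Complex.imCLM.integrable_comp (hi _)), Complex.reCLM.integral_comp_comm (hi _),
      Complex.imCLM.integral_comp_comm (hi _), ← hD, ← hD] at h0
    simp only [Complex.reCLM_apply, Complex.imCLM_apply] at h0
    linarith
  have hd : Differentiable ℝ (moll n F) := fun x => (hasFDerivAt_moll g n x).differentiableAt
  let L : ℂ →L[ℝ] (ℂ →L[ℝ] ℝ) := innerSL ℝ
  obtain ⟨w, hw⟩ := Convex.exists_forall_hasFDerivAt_of_fderiv_symmetric
    (convex_univ (𝕜 := ℝ) (E := ℂ)) isOpen_univ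
    (show DifferentiableOn ℝ (fun x => L (moll n F x)) univ from
      (L.differentiable.comp hd).differentiableOn) fun a _ p q => by
      have hc : fderiv ℝ (fun x => L (moll n F x)) a =
          L.comp (fderiv ℝ (moll n F) a) :=
        (L.hasFDerivAt.comp a (hd a).hasFDerivAt).fderiv
      have hlin : ∀ v : ℂ, fderiv ℝ (moll n F) a v =
          v.re • fderiv ℝ (moll n F) a 1 + v.im • fderiv ℝ (moll n F) a Complex.I := fun v => by
        rw [← map_smul, ← map_smul, ← map_add]
        congr 1
        apply Complex.ext <;> simp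
      rw [hc, ContinuousLinearMap.comp_apply, ContinuousLinearMap.comp_apply,
        show ∀ v v', L v v' = inner ℝ v v' from fun v v' => innerSL_apply_apply ℝ v v',
        show ∀ v v', L v v' = inner ℝ v v' from fun v v' => innerSL_apply_apply ℝ v v',
        ← dot_eq_inner, ← dot_eq_inner, hlin p, hlin q]
      simp only [dot, Complex.add_re, Complex.add_im, Complex.smul_re, Complex.smul_im, smul_eq_mul]
      linear_combination (p.re * q.im - p.im * q.re) * key a
  exact ⟨w, fun x => hw x (mem_univ x)⟩

end Vale.Agent.P128.Connected.Potential
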