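import Vale.Agent.P128.Connected.Interface
import Vale.Agent.P128.Islands.Calculus

/-!
# Averaged line integrals of a field with the growth `r ^ (3 / 2)`

For a field `F` whose mass in every disk of radius `r` is at most `M r √r`, the averaged line
integrals `val F R x y` are continuous in the field; for a gradient field `F = ∇w` they all equal
`w x - w y`.
-/

namespace Vale.Agent.P128.Connected.Potential

open MeasureTheory Filter Metric Set Islands
open scoped Topology ENNReal NNReal

/-- A measurable field of mass at most `M r √r` in each disk of radius `r`. -/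
structure Growth (F : ℂ → ℂ) (M : ℝ) : Prop where
  meas : Measurable F
  integrableOn : ∀ c r, IntegrableOn F (ball c r)
  le : ∀ (c : ℂ) (r : ℝ), 0 ≤ r → ∫ z in ball c r, ‖F z‖ ≤ M * (r * Real.sqrt r)

variable {F h : ℂ → ℂ} {M H : ℝ}

lemma Growth.nonneg (g : Growth F M) : 0 ≤ M := by
  have := g.le 0 1 zero_le_one
  have h0 : 0 ≤ ∫ z in ball (0 : ℂ) 1, ‖F z‖ := integral_nonneg fun z => norm_nonneg _
  simp at this
  linarith

lemma Growth.locallyIntegrable (g : Growth F M) : LocallyIntegrable F :=
  fun x => ⟨ball x 1, ball_mem_nhds x one_pos, g.integrableOn x 1⟩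

/-- The test weights: continuous, bounded and supported in the unit disk. -/
structure Weight (h : ℂ → ℂ) (H : ℝ) : Prop where
  cont : Continuous h
  le : ∀ z, ‖h z‖ ≤ H
  supp : ∀ z, 1 ≤ ‖z‖ → h z = 0

lemma abs_dot_le (v w : ℂ) : |dot v w| ≤ ‖v‖ * ‖w‖ := by
  rw [dot_eq_inner]; exact abs_real_inner_le_norm v w

/-- The pairing of a translated and scaled field with a weight. -/
noncomputable def pair (F h : ℂ → ℂ) (a : ℂ) (ρ : ℝ) : ℝ := ∫ z, dot (F (a + ρ • z)) (h z)

lemma Weight.abs_le (w : Weight h H) (F : ℂ → ℂ) (a : ℂ) {ρ : ℝ} (hρ : 0 < ρ) (z : ℂ) :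
    |dot (F (a + ρ • z)) (h z)| ≤ H * (ball a ρ).indicator (fun y => ‖F y‖) (a + ρ • z) := by
  by_cases hz : 1 ≤ ‖z‖
  · rw [w.supp z hz]
    simp only [dot, Complex.zero_re, Complex.zero_im, mul_zero, add_zero, abs_zero]
    exact mul_nonneg ((norm_nonneg _).trans (w.le 0))
      (indicator_nonneg (fun y _ => norm_nonneg _) _)
  · have hm : a + ρ • z ∈ ball a ρ := by
      rw [mem_ball, dist_eq_norm, add_sub_cancel_left, norm_smul, Real.norm_of_nonneg hρ.le]
      exact mul_lt_of_lt_one_right hρ (not_le.1 hz)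
    rw [indicator_of_mem hm, mul_comm H]
    exact (abs_dot_le _ _).trans (mul_le_mul_of_nonneg_left (w.le z) (norm_nonneg _))

lemma integrable_indicator_norm (g : Growth F M) (a : ℂ) (r : ℝ) :
    Integrable ((ball a r).indicator fun y => ‖F y‖) :=
  IntegrableOn.integrable_indicator (g.integrableOn a r).norm measurableSet_ball

lemma integrable_indicator_scaled (g : Growth F M) (a : ℂ) {ρ : ℝ} (hρ : 0 < ρ) :
    Integrable fun z => (ball a ρ).indicator (fun y => ‖F y‖) (a + ρ • z) :=
  Integrable.comp_smul (((integrable_indicator_norm g a ρ).comp_add_left a)) hρ.ne'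

lemma measurable_dot {α : Type*} [MeasurableSpace α] {f k : α → ℂ} (hf : Measurable f)
    (hk : Measurable k) : Measurable fun x => dot (f x) (k x) :=
  ((Complex.measurable_re.comp hf).mul (Complex.measurable_re.comp hk)).add
    ((Complex.measurable_im.comp hf).mul (Complex.measurable_im.comp hk))

lemma pair_integrable (g : Growth F M) (w : Weight h H) (a : ℂ) {ρ : ℝ} (hρ : 0 < ρ) :
    Integrable fun z => dot (F (a + ρ • z)) (h z) := by
  refine ((integrable_indicator_scaled g a hρ).const_mul H).mono'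
    (measurable_dot (g.meas.comp (by fun_prop)) w.cont.measurable).aestronglyMeasurable
    (Eventually.of_forall fun z => ?_)
  rw [Real.norm_eq_abs]
  exact w.abs_le F a hρ z

lemma integral_abs_pair_le (g : Growth F M) (w : Weight h H) (a : ℂ) {ρ : ℝ} (hρ : 0 < ρ) :
    ∫ z, |dot (F (a + ρ • z)) (h z)| ≤ H * M / Real.sqrt ρ := by
  have hH : 0 ≤ H := (norm_nonneg _).trans (w.le 0)
  refine (integral_mono (pair_integrable g w a hρ).abs
    ((integrable_indicator_scaled g a hρ).const_mul H) fun z => w.abs_le F a hρ z).trans ?_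
  have e := integral_eq_similarity ((ball a ρ).indicator fun y => ‖F y‖) a ρ hρ
  rw [integral_indicator measurableSet_ball] at e
  rw [integral_const_mul, mul_div_assoc]
  refine mul_le_mul_of_nonneg_left ?_ hH
  have h1 := g.le a ρ hρ.le
  have hs : 0 < Real.sqrt ρ := Real.sqrt_pos.2 hρ
  rw [le_div_iff₀ hs]
  rw [e] at h1
  have h2 : ρ * ρ = Real.sqrt ρ * Real.sqrt ρ * ρ := by rw [Real.mul_self_sqrt hρ.le]
  refine le_of_mul_le_mul_left ?_ (mul_pos hρ hs)
  calc ρ * Real.sqrt ρ * ((∫ z, (ball a ρ).indicator (fun y => ‖F y‖) (a + ρ • z)) * Real.sqrt ρ)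
      = ρ ^ 2 * ∫ z, (ball a ρ).indicator (fun y => ‖F y‖) (a + ρ • z) := by
        have := Real.mul_self_sqrt hρ.le
        linear_combination (ρ * ∫ z, (ball a ρ).indicator (fun y => ‖F y‖) (a + ρ • z)) * this
    _ ≤ ρ * Real.sqrt ρ * M := by linarith

lemma abs_pair_le (g : Growth F M) (w : Weight h H) (a : ℂ) {ρ : ℝ} (hρ : 0 < ρ) :
    |pair F h a ρ| ≤ H * M / Real.sqrt ρ := by
  refine le_trans ?_ (integral_abs_pair_le g w a hρ)
  exact abs_integral_le_integral_abs

lemma pair_eq_integral (F h : ℂ → ℂ) (a : ℂ) {ρ : ℝ} (hρ : 0 < ρ) :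
    pair F h a ρ = (ρ ^ 2)⁻¹ * ∫ y, dot (F y) (h (ρ⁻¹ • (y - a))) := by
  rw [integral_eq_similarity _ a ρ hρ, ← mul_assoc, inv_mul_cancel₀ (by positivity), one_mul]
  simp only [pair, add_sub_cancel_left, inv_smul_smul₀ hρ.ne']

lemma continuous_pair (g : Growth F M) (w : Weight h H) {ρ : ℝ} (hρ : 0 < ρ) :
    Continuous fun a => pair F h a ρ := by
  simp only [pair_eq_integral F h _ hρ]
  refine continuous_const.mul (continuous_iff_continuousAt.2 fun a₀ => ?_)
  refine continuousAt_of_dominated (bound := fun y => H * (ball a₀ (ρ + 1)).indicator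
    (fun y => ‖F y‖) y) (Eventually.of_forall fun a => (measurable_dot g.meas
      ((w.cont.comp (by fun_prop)).measurable)).aestronglyMeasurable)
    (eventually_of_mem (ball_mem_nhds a₀ one_pos) fun a ha => Eventually.of_forall fun y => ?_)
    ((integrable_indicator_norm g a₀ (ρ + 1)).const_mul H)
    (Eventually.of_forall fun y => ?_)
  · rw [Real.norm_eq_abs]
    by_cases hy : y ∈ ball a₀ (ρ + 1)
    · rw [indicator_of_mem hy, mul_comm H]
      exact (abs_dot_le _ _).trans (mul_le_mul_of_nonneg_left (w.le _) (norm_nonneg _))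
    · have h1 : 1 ≤ ‖ρ⁻¹ • (y - a)‖ := by
        rw [norm_smul, norm_inv, Real.norm_of_nonneg hρ.le, ← dist_eq_norm,
          le_inv_mul_iff₀ hρ, mul_one]
        rw [mem_ball, not_lt] at hy
        have := dist_triangle y a a₀
        rw [mem_ball] at ha
        linarith
      rw [w.supp _ h1, indicator_of_notMem hy]
      simp [dot]
  · have hc : Continuous fun a : ℂ => h (ρ⁻¹ • (y - a)) := w.cont.comp (by fun_prop)
    exact ((continuous_const.mul (Complex.continuous_re.comp hc)).add
      (continuous_const.mul (Complex.continuous_im.comp hc))).continuousAt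

/-- The bump weight. -/
noncomputable def bell (z : ℂ) : ℝ := max 0 (1 - ‖z‖ ^ 2)

lemma continuous_bell : Continuous bell := continuous_const.max (by fun_prop)

lemma bell_nonneg (z : ℂ) : 0 ≤ bell z := le_max_left _ _

lemma bell_le_one (z : ℂ) : bell z ≤ 1 := max_le zero_le_one (by nlinarith [norm_nonneg z])

lemma bell_eq_zero {z : ℂ} (hz : 1 ≤ ‖z‖) : bell z = 0 := max_eq_left (by nlinarith)

lemma integrable_bell : Integrable bell :=
  continuous_bell.integrable_of_hasCompactSupport
    (HasCompactSupport.intro (isCompact_closedBall (0 : ℂ) 1) fun z hz =>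
      bell_eq_zero (by simpa using (not_le.1 (by simpa using hz : ¬ ‖z‖ ≤ 1)).le))

lemma integral_bell_pos : 0 < ∫ z, bell z :=
  continuous_bell.integral_pos_of_hasCompactSupport_nonneg_nonzero
    (HasCompactSupport.intro (isCompact_closedBall (0 : ℂ) 1) fun z hz =>
      bell_eq_zero (by simpa using (not_le.1 (by simpa using hz : ¬ ‖z‖ ≤ 1)).le))
    bell_nonneg (x := 0) (by simp [bell])

/-- The weight of the radial line integrals. -/
noncomputable def radW (R : ℝ) (z : ℂ) : ℂ := bell z • R • z

/-- The weight of the line integrals along a translation. -/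
noncomputable def transW (x y : ℂ) (z : ℂ) : ℂ := bell z • (x - y)

lemma weight_radW {R : ℝ} (hR : 0 ≤ R) : Weight (radW R) R := by
  refine ⟨continuous_bell.smul (continuous_id.const_smul R), fun z => ?_, fun z hz => by
    simp [radW, bell_eq_zero hz]⟩
  rcases le_or_gt 1 ‖z‖ with hz | hz
  · simp [radW, bell_eq_zero hz, hR]
  · rw [radW, norm_smul, norm_smul, Real.norm_of_nonneg (bell_nonneg z), Real.norm_of_nonneg hR]
    calc bell z * (R * ‖z‖) ≤ 1 * (R * 1) := by
          refine mul_le_mul (bell_le_one z) (mul_le_mul_of_nonneg_left hz.le hR) (by positivity)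
            zero_le_one
      _ = R := by ring

lemma weight_transW (x y : ℂ) : Weight (transW x y) ‖x - y‖ := by
  refine ⟨continuous_bell.smul continuous_const, fun z => ?_, fun z hz => by
    simp [transW, bell_eq_zero hz]⟩
  rw [transW, norm_smul, Real.norm_of_nonneg (bell_nonneg z)]
  exact mul_le_of_le_one_left (norm_nonneg _) (bell_le_one z)

/-- Averaged integral of the field along the radii issued from `x`. -/
noncomputable def radial (F : ℂ → ℂ) (R : ℝ) (x : ℂ) : ℝ :=
  ∫ t in Ioc (0 : ℝ) 1, pair F (radW R) x (t * R)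

/-- Averaged integral of the field along the segments parallel to `[y, x]`. -/
noncomputable def shift (F : ℂ → ℂ) (R : ℝ) (x y : ℂ) : ℝ :=
  ∫ t in Ioc (0 : ℝ) 1, pair F (transW x y) (y + t • (x - y)) R

/-- The increment between `y` and `x` of the potential of a curl free field. -/
noncomputable def val (F : ℂ → ℂ) (R : ℝ) (x y : ℂ) : ℝ :=
  (shift F R x y - radial F R x + radial F R y) / ∫ z, bell z

lemma aestronglyMeasurable_pair_path (hF : Measurable F) (hh : Measurable h) {a : ℝ → ℂ}
    {r : ℝ → ℝ} (ha : Measurable a) (hr : Measurable r) (μ : Measure ℝ) :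
    AEStronglyMeasurable (fun t => pair F h (a t) (r t)) μ := by
  have hm : Measurable fun p : ℝ × ℂ => dot (F (a p.1 + r p.1 • p.2)) (h p.2) :=
    measurable_dot (hF.comp ((ha.comp measurable_fst).add
      ((hr.comp measurable_fst).smul measurable_snd))) (hh.comp measurable_snd)
  exact (hm.stronglyMeasurable.integral_prod_right').aestronglyMeasurable

lemma integrableOn_inv_sqrt {R : ℝ} (hR : 0 < R) (C : ℝ) :
    IntegrableOn (fun t : ℝ => C / Real.sqrt (t * R)) (Ioc 0 1) := by
  have h1 : IntegrableOn (fun t : ℝ => C / Real.sqrt R * t ^ (-(1 / 2) : ℝ)) (Ioc 0 1) :=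
    (((intervalIntegral.intervalIntegrable_rpow' (a := 0) (b := 1)
      (by norm_num : (-1 : ℝ) < -(1 / 2))).1)).const_mul _
  refine h1.congr_fun (fun t ht => ?_) measurableSet_Ioc
  simp only
  rw [Real.rpow_neg ht.1.le, ← Real.sqrt_eq_rpow, Real.sqrt_mul ht.1.le]
  field_simp

lemma integral_inv_sqrt {R : ℝ} (C : ℝ) :
    ∫ t in Ioc (0 : ℝ) 1, C / Real.sqrt (t * R) = 2 * C / Real.sqrt R := by
  have e : EqOn (fun t : ℝ => C / Real.sqrt (t * R))
      (fun t => C / Real.sqrt R * t ^ (-(1 / 2) : ℝ)) (Ioc 0 1) := fun t ht => by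
    simp only
    rw [Real.rpow_neg ht.1.le, ← Real.sqrt_eq_rpow, Real.sqrt_mul ht.1.le]
    ring
  rw [setIntegral_congr_fun measurableSet_Ioc e,
    ← intervalIntegral.integral_of_le zero_le_one, intervalIntegral.integral_const_mul,
    integral_rpow (Or.inl (by norm_num))]
  norm_num
  ring

lemma abs_radial_le (g : Growth F M) {R : ℝ} (hR : 0 < R) (x : ℂ) :
    |radial F R x| ≤ 2 * M * Real.sqrt R := by
  refine (abs_integral_le_integral_abs).trans ?_
  refine (setIntegral_mono_on ((integrableOn_inv_sqrt hR (R * M)).mono'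
    (aestronglyMeasurable_pair_path g.meas (weight_radW hR.le).cont.measurable measurable_const
      (measurable_id.mul_const R) _) ((ae_restrict_iff' measurableSet_Ioc).2
        (Eventually.of_forall fun t ht => ?_))).abs (integrableOn_inv_sqrt hR (R * M))
    measurableSet_Ioc fun t ht => abs_pair_le g (weight_radW hR.le) x (mul_pos ht.1 hR)).trans ?_
  · rw [Real.norm_eq_abs]
    exact abs_pair_le g (weight_radW hR.le) x (mul_pos ht.1 hR)
  · rw [integral_inv_sqrt, mul_comm R M, mul_assoc 2 M (Real.sqrt R)]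
    rw [show 2 * (M * R) / Real.sqrt R = 2 * M * (R / Real.sqrt R) by ring, Real.div_sqrt]
    exact le_of_eq (by ring)

lemma abs_shift_le (g : Growth F M) {R : ℝ} (hR : 0 < R) (x y : ℂ) :
    |shift F R x y| ≤ ‖x - y‖ * M / Real.sqrt R := by
  refine (abs_integral_le_integral_abs).trans ?_
  have := norm_setIntegral_le_of_norm_le_const (μ := (volume : Measure ℝ)) (s := Ioc (0 : ℝ) 1)
    (f := fun t => |pair F (transW x y) (y + t • (x - y)) R|) (by simp)
    (fun t _ => by
      simpa using abs_pair_le g (weight_transW x y) (y + t • (x - y)) hR)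
  simpa [abs_of_nonneg (integral_nonneg fun t => abs_nonneg _)] using this

lemma abs_val_le (g : Growth F M) {R : ℝ} (hR : 0 < R) (x y : ℂ) :
    |val F R x y| ≤ (‖x - y‖ * M / Real.sqrt R + 4 * M * Real.sqrt R) / ∫ z, bell z := by
  rw [val, abs_div, abs_of_pos integral_bell_pos]
  refine div_le_div_of_nonneg_right ?_ integral_bell_pos.le
  have h1 := abs_le.1 (abs_shift_le g hR x y)
  have h2 := abs_le.1 (abs_radial_le g hR x)
  have h3 := abs_le.1 (abs_radial_le g hR y)
  rw [abs_le]
  constructor <;> linarith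

end Vale.Agent.P128.Connected.Potential
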